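import Vale.Agent.P275.H677.A1

/-!
# Factorisation of the basis elements (row A3)
-/

namespace Vale.Agent.P275.H85G

open scoped BigOperators
open Vale.Agent.P275.H341 Vale.Agent.P275.H677.A1

variable {I : Type} (H : PSH I)

/-- divisors of divisors -/
theorem dvd_tr {u v d b a : I} (h1 : H.c u v d ≠ 0) (h2 : H.c d b a ≠ 0) :
    ∃ y, H.c u y a ≠ 0 := by
  obtain ⟨e, _, he⟩ := assoc_ex H h1 h2
  exact ⟨e, he⟩

/-- every element except `1` has a primitive divisor -/
theorem exists_prim {a : I} (ha : a ≠ H.one) : ∃ d, H.Pr d ∧ ∃ b, H.c d b a ≠ 0 := by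
  have h1 : ∃ n d, H.deg d = n ∧ 0 < H.deg d ∧ ∃ b, H.c d b a ≠ 0 := by
    refine ⟨_, a, rfl, ?_, H.one, ?_⟩
    · by_contra h
      exact ha (eq_one H (by omega))
    · rw [H.c_comm, H.c_one_self]
      exact one_ne_zero
  classical
  obtain ⟨d, hd, hd0, b, hb⟩ := Nat.find_spec h1
  refine ⟨d, ⟨hd0, fun u v huv => ?_⟩, b, hb⟩
  by_contra hcon
  push Not at hcon
  obtain ⟨y, hy⟩ := dvd_tr H huv hb
  have h2 := H.c_deg _ _ _ huv
  have h3 : H.deg v ≠ 0 := fun h => hcon.2 (eq_one H h)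
  have h4 : H.deg u ≠ 0 := fun h => hcon.1 (eq_one H h)
  exact Nat.find_min h1 (m := H.deg u) (by omega) ⟨u, rfl, by omega, y, hy⟩

theorem only_dvd {p a u v : I} (h : H.Only p a) (hu : H.c u v a ≠ 0) : H.Only p u := by
  intro p' hp' hb
  obtain ⟨b, hb⟩ := hb
  exact h p' hp' (dvd_tr H hb hu)

theorem away_dvd {p b u v : I} (h : H.Away p b) (hu : H.c u v b ≠ 0) : H.Away p u := by
  intro w
  by_contra hw
  obtain ⟨y, hy⟩ := dvd_tr H hw hu
  exact hy (h y)

theorem only_away {p x : I} (h1 : H.Only p x) (h2 : H.Away p x) : x = H.one := by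
  by_contra hx
  obtain ⟨d, hd, b, hb⟩ := exists_prim H hx
  have h3 := h1 d hd ⟨b, hb⟩
  subst h3
  exact hb (h2 b)

theorem only_one (p : I) : H.Only p H.one := by
  intro p' hp' hb
  obtain ⟨b, hb⟩ := hb
  have h1 := H.c_deg _ _ _ hb
  rw [deg_one] at h1
  have h2 := hp'.1
  omega

/-- a nonzero term in the pairing of two products -/
theorem term_eq {p a b a' b' s1 s2 t1 t2 : I} (ha : H.Only p a) (hb : H.Away p b)
    (ha' : H.Only p a') (hb' : H.Away p b') (h1 : H.c s1 s2 a ≠ 0) (h2 : H.c t1 t2 b ≠ 0)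
    (h3 : H.c s1 t1 a' ≠ 0) (h4 : H.c s2 t2 b' ≠ 0) :
    s1 = a ∧ s2 = H.one ∧ t1 = H.one ∧ t2 = b ∧ a' = a ∧ b' = b := by
  have h5 : t1 = H.one := by
    refine only_away H (p := p) (only_dvd H ha' (v := s1) ?_) (away_dvd H hb h2)
    rw [H.c_comm]
    exact h3
  have h6 : s2 = H.one := by
    refine only_away H (p := p) (only_dvd H ha (v := s1) ?_) (away_dvd H hb' h4)
    rw [H.c_comm]
    exact h1
  subst h5 h6
  have h7 := c_one_right H h1
  have h8 := c_one_left H h2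
  have h9 := c_one_right H h3
  have h10 := c_one_left H h4
  exact ⟨h7.symm, rfl, rfl, h8.symm, h9.trans h7.symm, h10.trans h8.symm⟩

theorem pair_ne {p a b a' b' : I} (ha : H.Only p a) (hb : H.Away p b)
    (ha' : H.Only p a') (hb' : H.Away p b') {z : I} (h1 : H.c a b z ≠ 0) (h2 : H.c a' b' z ≠ 0) :
    a' = a ∧ b' = b := by
  have h3 : ∑ x ∈ H.lvl (H.deg a + H.deg b), H.c a b x * H.c a' b' x ≠ 0 := by
    intro h
    have h4 := (Finset.sum_eq_zero_iff.1 h) z ((H.mem_lvl _ _).2 (H.c_deg _ _ _ h1))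
    exact mul_ne_zero h1 h2 h4
  rw [hopf_P] at h3
  obtain ⟨s, _, hs⟩ := Finset.exists_ne_zero_of_sum_ne_zero h3
  obtain ⟨t, _, ht⟩ := Finset.exists_ne_zero_of_sum_ne_zero hs
  have h4 := left_ne_zero_of_mul ht
  have h5 := right_ne_zero_of_mul ht
  have h6 := term_eq H ha hb ha' hb' (left_ne_zero_of_mul h4) (right_ne_zero_of_mul h4)
    (left_ne_zero_of_mul h5) (right_ne_zero_of_mul h5)
  exact h6.2.2.2.2

theorem pair_self {p a b : I} (ha : H.Only p a) (hb : H.Away p b) :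
    ∑ x ∈ H.lvl (H.deg a + H.deg b), H.c a b x * H.c a b x = 1 := by
  rw [hopf_P]
  rw [Finset.sum_eq_single (a, H.one)]
  · rw [Finset.sum_eq_single (H.one, b)]
    · show H.c a H.one a * H.c H.one b b * (H.c a H.one a * H.c H.one b b) = 1
      rw [c_right_one, H.c_one_self]
    · intro t _ ht
      by_contra h
      have h4 := left_ne_zero_of_mul h
      have h5 := right_ne_zero_of_mul h
      have h6 := term_eq H ha hb ha hb (left_ne_zero_of_mul h4) (right_ne_zero_of_mul h4)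
        (left_ne_zero_of_mul h5) (right_ne_zero_of_mul h5)
      exact ht (Prod.ext h6.2.2.1 h6.2.2.2.1)
    · intro h
      exact absurd ((mem_P H).2 (by show H.deg H.one + H.deg b = H.deg b; rw [deg_one, zero_add])) h
  · intro s _ hs
    refine Finset.sum_eq_zero fun t _ => ?_
    by_contra h
    have h4 := left_ne_zero_of_mul h
    have h5 := right_ne_zero_of_mul h
    have h6 := term_eq H ha hb ha hb (left_ne_zero_of_mul h4) (right_ne_zero_of_mul h4)
      (left_ne_zero_of_mul h5) (right_ne_zero_of_mul h5)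
    exact hs (Prod.ext h6.1 h6.2.1)
  · intro h
    exact absurd ((mem_P H).2 (by show H.deg a + H.deg H.one = H.deg a; rw [deg_one, add_zero])) h

/-- the product of an element over `p` and an element away from `p` is irreducible -/
theorem isProd_of {p a b : I} (ha : H.Only p a) (hb : H.Away p b) : ∃ z, H.IsProd a b z := by
  classical
  have h1 := pair_self H ha hb
  obtain ⟨z, hz, hz0⟩ := Finset.exists_ne_zero_of_sum_ne_zero (s := H.lvl (H.deg a + H.deg b))
    (f := fun x => H.c a b x * H.c a b x) (by rw [h1]; exact one_ne_zero)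
  have h2 := Finset.add_sum_erase (H.lvl (H.deg a + H.deg b)) (fun x => H.c a b x * H.c a b x) hz
  rw [h1] at h2
  have h2' : H.c a b z * H.c a b z + ∑ x ∈ (H.lvl (H.deg a + H.deg b)).erase z,
      H.c a b x * H.c a b x = 1 := h2
  have hz0' : H.c a b z * H.c a b z ≠ 0 := hz0
  have h3 : H.c a b z * H.c a b z = 1 := by omega
  have h4 : ∑ x ∈ (H.lvl (H.deg a + H.deg b)).erase z, H.c a b x * H.c a b x = 0 := by omega
  refine ⟨z, Nat.eq_one_of_mul_eq_one_left h3, fun x hx => ?_⟩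
  by_contra h5
  have h6 : x ∈ (H.lvl (H.deg a + H.deg b)).erase z :=
    Finset.mem_erase.2 ⟨hx, (H.mem_lvl _ _).2 (H.c_deg _ _ _ h5)⟩
  have h7 := (Finset.sum_eq_zero_iff.1 h4) x h6
  exact mul_ne_zero h5 h5 h7

theorem isProd_eq {a b z x : I} (h : H.IsProd a b z) (hx : H.c a b x ≠ 0) : x = z := by
  by_contra hne
  exact hx (h.2 x hne)

/-- existence of the factorisation -/
theorem exists_fac {p : I} (hp : H.Pr p) (z : I) :
    ∃ a b, H.Only p a ∧ H.Away p b ∧ H.c a b z ≠ 0 := by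
  classical
  have hex : ∃ n, n ≤ H.deg z ∧ ∃ a b, H.deg a = n ∧ H.Only p a ∧ H.c a b z ≠ 0 :=
    ⟨0, Nat.zero_le _, H.one, z, deg_one H, only_one H p, by rw [H.c_one_self]; exact one_ne_zero⟩
  obtain ⟨n, hn, hn'⟩ := hex
  have hspec := Nat.findGreatest_spec (P := fun n => ∃ a b, H.deg a = n ∧ H.Only p a ∧
    H.c a b z ≠ 0) hn hn'
  set N := Nat.findGreatest (fun n => ∃ a b, H.deg a = n ∧ H.Only p a ∧ H.c a b z ≠ 0) (H.deg z)
    with hN
  obtain ⟨a, b, hd, ha, hab⟩ := hspec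
  refine ⟨a, b, ha, fun b' => ?_, hab⟩
  by_contra hb
  have hb2 : H.c b' p b ≠ 0 := by
    rw [H.c_comm]
    exact hb
  have hab2 : H.c b a z ≠ 0 := by
    rw [H.c_comm]
    exact hab
  obtain ⟨e, he1, he2⟩ := assoc_ex H hb2 hab2
  have he3 : H.c e b' z ≠ 0 := by
    rw [H.c_comm]
    exact he2
  have honly : H.Only p e := by
    intro p' hp' hw
    obtain ⟨w, hw⟩ := hw
    have hw2 : H.c w p' e ≠ 0 := by
      rw [H.c_comm]
      exact hw
    rcases hopf_ex H hp' he1 hw2 with ⟨t, ht, _⟩ | ⟨s, hs, _⟩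
    · exact ha p' hp' ⟨t, by rw [H.c_comm]; exact ht⟩
    · rcases pr_split H hp hs with h | h
      · exact h.2
      · exact absurd h.2 (pr_ne H hp')
  have hde := H.c_deg _ _ _ he1
  have hdz := H.c_deg _ _ _ he3
  have hpos := hp.1
  have hle := Nat.le_findGreatest (P := fun n => ∃ a b, H.deg a = n ∧ H.Only p a ∧ H.c a b z ≠ 0)
    (m := H.deg e) (n := H.deg z) (by omega) ⟨e, b', rfl, honly, he3⟩
  rw [← hN] at hle
  omega

/-- **Row A3** -/
theorem rowA3 : RowA3 := by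
  intro I H p hp
  refine ⟨fun a b ha hb => isProd_of H ha hb, fun z => ?_⟩
  obtain ⟨a, b, ha, hb, hab⟩ := exists_fac H hp z
  refine ⟨(a, b), ⟨ha, hb, ?_⟩, ?_⟩
  · obtain ⟨z', hz'⟩ := isProd_of H ha hb
    rw [isProd_eq H hz' hab]
    exact hz'
  · rintro ⟨a', b'⟩ ⟨ha', hb', hp'⟩
    have h1 : H.c a' b' z ≠ 0 := by
      rw [hp'.1]
      exact one_ne_zero
    obtain ⟨h2, h3⟩ := pair_ne H ha hb ha' hb' hab h1
    exact Prod.ext h2 h3

end Vale.Agent.P275.H85G
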