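import Vale.Agent.P275.H341.Gen

/-!
# The orbits of exact length in terms of the cuspidal sums (row C11)
-/

set_option linter.style.haveILetI false
set_option linter.unusedSectionVars false

namespace Vale.Agent.P275.H85G

open scoped BigOperators MatrixGroups
open Module Matrix Vale.Agent.P275.H85 Vale.Agent.P275.H341

variable {F : Type} [Field F] [Fintype F] [DecidableEq F]

theorem iter_twist (κ : Fˣ →* ℂˣ) (c : Cu F) (i : ℕ) :
    (fun c : Cu F => c.twist κ)^[i] c = c.twist (κ ^ i) := by
  induction i with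
  | zero => rw [hpow_zero, Cu.twist_one]; rfl
  | succ i ih =>
    rw [Function.iterate_succ_apply', ih]
    have h1 := twist_add κ c i 1
    rw [← h1]
    congr 1
    exact (pow_one κ).symm

theorem per_iff (κ : Fˣ →* ℂˣ) (c : Cu F) (i : ℕ) :
    Function.minimalPeriod (fun c : Cu F => c.twist κ) c ∣ i ↔ c.twist (κ ^ i) = c := by
  rw [← Function.isPeriodicPt_iff_minimalPeriod_dvd]
  unfold Function.IsPeriodicPt Function.IsFixedPt
  rw [iter_twist]

theorem minP_pos (κ : Fˣ →* ℂˣ) (c : Cu F) :
    0 < Function.minimalPeriod (fun c : Cu F => c.twist κ) c := by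
  have h1 : c.twist (κ ^ orderOf κ) = c := by
    have h3 : κ ^ orderOf κ = 1 := pow_orderOf_eq_one κ
    rw [h3, Cu.twist_one]
  rw [← per_iff] at h1
  exact Nat.pos_of_dvd_of_pos h1 (orderOf_pos' κ)

theorem mem_Es' {d : ℕ} {κ : Fˣ →* ℂˣ} {j : ℕ} (hj : 0 < j) {c : Cu F} :
    c ∈ Es F d κ j ↔ c ∈ cuS F d ∧
      Function.minimalPeriod (fun c : Cu F => c.twist κ) c = j := by
  rw [mem_Es, mem_cuS]
  refine and_congr Iff.rfl ?_
  set T := fun c : Cu F => c.twist κ with hT
  constructor
  · rintro ⟨h1, h2⟩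
    have h3 : Function.minimalPeriod T c ∣ j := (per_iff κ c j).2 h1
    have h4 := Nat.le_of_dvd hj h3
    by_contra hne
    have h5 : Function.minimalPeriod T c < j := lt_of_le_of_ne h4 hne
    unfold orb at h2
    have h6 : c.twist (κ ^ 0) = c.twist (κ ^ Function.minimalPeriod T c) := by
      rw [hpow_zero, Cu.twist_one]
      exact ((per_iff κ c _).1 dvd_rfl).symm
    have h8 := (List.nodup_map_iff_inj_on List.nodup_range).mp h2 0 (List.mem_range.mpr hj)
      (Function.minimalPeriod T c) (List.mem_range.mpr h5) h6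
    have h9 : 0 < Function.minimalPeriod T c := minP_pos κ c
    omega
  · intro h
    refine ⟨(per_iff κ c j).1 (h ▸ dvd_rfl), ?_⟩
    unfold orb
    rw [List.nodup_map_iff_inj_on List.nodup_range]
    intro a ha b hb hab
    rw [List.mem_range] at ha hb
    have key : ∀ a b : ℕ, a ≤ b → b < j → c.twist (κ ^ a) = c.twist (κ ^ b) → a = b := by
      intro a b hab hb heq
      have h1 : c.twist (κ ^ (b - a)) = c := by
        apply untwist (i := a)
        rw [heq]
        congr 2
        omega
      rw [← per_iff] at h1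
      by_contra hne
      have h2 := Nat.le_of_dvd (by omega) h1
      have h3 : Function.minimalPeriod (fun c : Cu F => c.twist κ) c = j := h
      omega
    rcases le_total a b with h' | h'
    · exact key a b h' hb hab
    · exact (key b a h' ha hab.symm).symm

open scoped Classical in
/-- the cuspidal sum is the sum over the exact periods -/
theorem acus_eq (d : ℕ) (κ : Fˣ →* ℂˣ) {j : ℕ} (hj : 0 < j) (z : Fˣ) :
    Acus F d (κ ^ j) z = ∑ i ∈ j.divisors, ∑ c ∈ Es F d κ i, wt c.χ z := by
  unfold Acus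
  rw [← Finset.sum_fiberwise_of_maps_to
    (s := (cuS F d).filter (fun c => c.twist (κ ^ j) = c)) (t := j.divisors)
    (g := fun c => Function.minimalPeriod (fun c : Cu F => c.twist κ) c)]
  · apply Finset.sum_congr rfl
    intro i hi
    have hi' := Nat.mem_divisors.1 hi
    have hipos : 0 < i := Nat.pos_of_mem_divisors hi
    apply Finset.sum_congr _ (fun _ _ => rfl)
    ext c
    rw [Finset.mem_filter, Finset.mem_filter, mem_Es' hipos]
    constructor
    · rintro ⟨⟨h1, _⟩, h3⟩
      exact ⟨h1, h3⟩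
    · rintro ⟨h1, h3⟩
      refine ⟨⟨h1, ?_⟩, h3⟩
      rw [← per_iff]
      have h3' : Function.minimalPeriod (fun c : Cu F => c.twist κ) c = i := h3
      rw [h3']
      exact hi'.1
  · intro c hc
    rw [Finset.mem_filter] at hc
    rw [Nat.mem_divisors]
    exact ⟨(per_iff κ c j).2 hc.2, hj.ne'⟩

/-- **Row C11** -/
theorem rowC11 : RowC11 := by
  intro hC10 F _ _ _ n m d j hn hm hd hj κ ζ hκ hneg hζ
  have hdpos : 0 < d := Nat.pos_of_dvd_of_pos hd hn
  have hmpos : 0 < m := Nat.pos_of_dvd_of_pos hm hn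
  have hndpos : 0 < n / d := Nat.div_pos (Nat.le_of_dvd hn hd) hdpos
  have hjpos : 0 < j := Nat.pos_of_dvd_of_pos hj hndpos
  set G := Nat.gcd m d with hG
  have hGpos : 0 < G := Nat.gcd_pos_of_pos_left _ hmpos
  set j₀ := m / G with hj₀
  have hj₀G : j₀ * G = m := Nat.div_mul_cancel (Nat.gcd_dvd_left m d)
  have hj₀pos : 0 < j₀ := Nat.pos_of_ne_zero (by
    intro h
    rw [h, zero_mul] at hj₀G
    omega)
  set C : ℂ := (((Fintype.card F : ℂ) - 1) / d) * ((ArithmeticFunction.moebius d : ℤ) : ℂ) with hC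
  have hζd : orderOf (ζ ^ (n / d)) = d := by
    rw [orderOf_pow' ζ hndpos.ne', hζ, Nat.gcd_eq_right (Nat.div_dvd_of_dvd hd)]
    exact Nat.div_div_self hd (by omega)
  -- the periods are multiples of `j₀`
  have hmul : ∀ t : ℕ, ∀ c : Cu F, c.s = d → c.twist (κ ^ t) = c → j₀ ∣ t := by
    intro t c hc ht
    have h1 : c.twist (κ ^ 0) = c.twist (κ ^ t) := by rw [hpow_zero, Cu.twist_one, ht]
    have h2 := twist_eq_dvd hκ (Nat.zero_le t) h1
    rw [hc, Nat.sub_zero] at h2
    have h3 : j₀ * G ∣ t * ((d / G) * G) := by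
      rw [hj₀G, Nat.div_mul_cancel (Nat.gcd_dvd_right m d)]
      exact h2
    rw [← mul_assoc] at h3
    have h4 : j₀ ∣ t * (d / G) := Nat.dvd_of_mul_dvd_mul_right hGpos h3
    have h5 : Nat.Coprime j₀ (d / G) := Nat.coprime_div_gcd_div_gcd hGpos
    exact h5.dvd_of_dvd_mul_right h4
  -- the cuspidal sums
  have hA : ∀ t : ℕ, 0 < t → Acus F d (κ ^ t) (ζ ^ (n / d)) = if j₀ ∣ t then C else 0 := by
    intro t ht
    split_ifs with h
    · have ho : orderOf (κ ^ t) = m / Nat.gcd m t := by
        have := orderOf_pow' κ ht.ne'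
        rwa [hκ] at this
      have hdv : m / Nat.gcd m t ∣ d := by
        have h1 : j₀ ∣ Nat.gcd m t := Nat.dvd_gcd ⟨G, hj₀G.symm⟩ h
        have h2 : m / Nat.gcd m t ∣ m / j₀ := by
          obtain ⟨a, ha⟩ := h1
          obtain ⟨b, hb⟩ := Nat.gcd_dvd_left m t
          have hgpos : 0 < Nat.gcd m t := Nat.gcd_pos_of_pos_left _ hmpos
          have e1 : m / Nat.gcd m t = b :=
            Nat.div_eq_of_eq_mul_right hgpos hb
          have e2 : m / j₀ = a * b := by
            have : m = j₀ * (a * b) := by rw [← mul_assoc, ← ha, ← hb]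
            exact Nat.div_eq_of_eq_mul_right hj₀pos this
          rw [e1, e2]
          exact Dvd.intro_left a rfl
        have h3 : m / j₀ = G := Nat.div_eq_of_eq_mul_right hj₀pos hj₀G.symm
        rw [h3] at h2
        exact h2.trans (Nat.gcd_dvd_right m d)
      exact hC10 F d (m / Nat.gcd m t) hdpos hdv (κ ^ t) (ζ ^ (n / d)) ho
        (by rw [MonoidHom.pow_apply, hneg, one_pow]) hζd
    · unfold Acus
      apply Finset.sum_eq_zero
      intro c hc
      have hc1 := (@Finset.mem_filter _ _ (_) _ _).1 hc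
      exact absurd (hmul t c (mem_cuS.1 hc1.1) hc1.2) h
  -- the exact orbits
  have key : ∀ t : ℕ, 0 < t → ∑ c ∈ Es F d κ t, wt c.χ (ζ ^ (n / d)) = if t = j₀ then C else 0 := by
    intro t
    induction t using Nat.strong_induction_on with
    | _ t ih =>
      intro ht
      have h1 := hA t ht
      rw [acus_eq d κ ht, ← Nat.insert_self_properDivisors ht.ne',
        Finset.sum_insert Nat.self_notMem_properDivisors] at h1
      have h2 : ∑ i ∈ t.properDivisors, ∑ c ∈ Es F d κ i, wt c.χ (ζ ^ (n / d))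
          = if j₀ ∈ t.properDivisors then C else 0 := by
        rw [← Finset.sum_ite_eq' t.properDivisors j₀ (fun _ => C)]
        apply Finset.sum_congr rfl
        intro i hi
        have hi' := Nat.mem_properDivisors.1 hi
        exact ih i hi'.2 (Nat.pos_of_dvd_of_pos hi'.1 ht)
      rw [h2] at h1
      by_cases ht0 : t = j₀
      · rw [if_pos ht0]
        rw [ht0, if_pos dvd_rfl, if_neg Nat.self_notMem_properDivisors, add_zero] at h1
        rw [ht0]
        exact h1
      · rw [if_neg ht0]
        by_cases hdvd : j₀ ∣ t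
        · have hmem : j₀ ∈ t.properDivisors := by
            rw [Nat.mem_properDivisors]
            exact ⟨hdvd, lt_of_le_of_ne (Nat.le_of_dvd ht hdvd) (Ne.symm ht0)⟩
          rw [if_pos hdvd, if_pos hmem] at h1
          linear_combination h1
        · have hmem : j₀ ∉ t.properDivisors := by
            intro h
            exact hdvd (Nat.mem_properDivisors.1 h).1
          rw [if_neg hdvd, if_neg hmem, add_zero] at h1
          exact h1
  rw [key j hjpos]
  have hiff : j = j₀ ↔ j * G = m := by
    constructor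
    · rintro rfl
      exact hj₀G
    · intro h
      exact Nat.eq_of_mul_eq_mul_right hGpos (h.trans hj₀G.symm)
  by_cases h : j = j₀
  · rw [if_pos h, if_pos (hiff.1 h)]
  · rw [if_neg h, if_neg (fun h' => h (hiff.2 h'))]

end Vale.Agent.P275.H85G
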