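import Vale.Agent.P275.H341.Gen

/-!
# The normalised degree is multiplicative (row C3)
-/

set_option linter.style.haveILetI false
set_option linter.unusedSectionVars false

namespace Vale.Agent.P275.H85G

open scoped BigOperators MatrixGroups
open Module Matrix Vale.Agent.P275.H85 Vale.Agent.P275.H341

variable {F : Type} [Field F] [Fintype F] [DecidableEq F]

theorem sum_lvl {H : PSH (IrrF F)} (hC : Con F H) (N : ℕ) (G : IrrF F → ℂ)
    (G' : (GL (Fin N) F → ℂ) → ℂ) (hG : ∀ χ : {χ : GL (Fin N) F → ℂ // IsIrrChar χ},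
      G ⟨N, χ⟩ = G' χ.1) :
    ∑ x ∈ H.lvl N, G x = ∑ χ ∈ irrSet (GL (Fin N) F), G' χ := by
  classical
  symm
  refine Finset.sum_bij (fun χ hχ => (⟨N, ⟨χ, mem_irrSet.1 hχ⟩⟩ : IrrF F)) ?_ ?_ ?_ ?_
  · intro χ hχ
    rw [H.mem_lvl, hC.deg]
  · intro χ hχ χ' hχ' h
    injection h with _ h2
    exact congrArg Subtype.val h2
  · intro x hx
    rw [H.mem_lvl, hC.deg] at hx
    obtain ⟨n, χ⟩ := x
    have hx' : n = N := hx
    subst hx'
    exact ⟨χ.1, mem_irrSet.2 χ.2, rfl⟩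
  · intro χ hχ
    exact (hG ⟨χ, mem_irrSet.1 hχ⟩).symm

/-- the irreducible character of the trivial group -/
theorem irr_zero {χ : GL (Fin 0) F → ℂ} (hχ : IsIrrChar χ) : χ 1 = 1 := by
  have h1 := ip_irr hχ hχ
  rw [if_pos rfl] at h1
  have hcard : Fintype.card (GL (Fin 0) F) = 1 := by
    rw [card_gl]
    simp
  haveI : Subsingleton (GL (Fin 0) F) := Fintype.card_le_one_iff_subsingleton.1 hcard.le
  unfold ip at h1
  have h2 : ∑ x : GL (Fin 0) F, χ x * χ x⁻¹ = χ 1 * χ 1 := by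
    rw [Fintype.sum_subsingleton _ (1 : GL (Fin 0) F), _root_.inv_one]
  rw [h2, hcard] at h1
  obtain ⟨π, rfl⟩ := hχ
  rw [π.χ_one] at h1 ⊢
  have h3 : ((π.dim : ℕ) : ℂ) * ((π.dim : ℕ) : ℂ) = 1 := by
    simpa using h1
  have h4 : π.dim * π.dim = 1 := by exact_mod_cast h3
  have h5 : π.dim = 1 := Nat.eq_one_of_mul_eq_one_left h4
  exact_mod_cast h5

theorem hh_zero {χ : GL (Fin 0) F → ℂ} (hχ : IsIrrChar χ) : hh χ = 1 := by
  have hcard : Fintype.card (GL (Fin 0) F) = 1 := by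
    rw [card_gl]
    simp
  unfold hh
  rw [irr_zero hχ, hcard]
  simp

theorem hh_inv {n : ℕ} (χ : GL (Fin n) F → ℂ) :
    (hh χ)⁻¹ = χ 1 * ((Fintype.card F : ℂ) ^ (Nat.choose n 2) / Fintype.card (GL (Fin n) F)) := by
  unfold hh
  rw [inv_div]
  ring

/-- **Row C3** -/
theorem rowC3 : RowC3 := by
  intro F _ _ _ H hC
  constructor
  · show (hh H.one.2.1)⁻¹ = 1
    have key : ∀ x : IrrF F, x.1 = 0 → hh x.2.1 = 1 := by
      rintro ⟨n, χ⟩ h
      have h' : n = 0 := h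
      subst h'
      exact hh_zero χ.2
    rw [key _ hC.one, _root_.inv_one]
  · intro a b
    rw [hC.deg, hC.deg]
    obtain ⟨e, α, hα⟩ := a
    obtain ⟨m, β, hβ⟩ := b
    show (hh α)⁻¹ * (hh β)⁻¹ = ∑ x ∈ H.lvl (e + m), _
    have hn : m + e = e + m := add_comm m e
    have hcl : IsClass (rs (e + m) (mul (toCF α) (toCF β))) :=
      isClass_rs (inv_mul (inv_toCF hα.isClass) (inv_toCF hβ.isClass))
    rw [sum_lvl hC (e + m) _ (fun χ => ip (rs (e + m) (mul (toCF α) (toCF β))) χ *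
      (χ 1 * ((Fintype.card F : ℂ) ^ (Nat.choose (e + m) 2) / Fintype.card (GL (Fin (e + m)) F))))]
    · have h1 := expand _ hcl
      have h2 : rs (e + m) (mul (toCF α) (toCF β)) 1 = ∑ χ ∈ irrSet (GL (Fin (e + m)) F),
          ip (rs (e + m) (mul (toCF α) (toCF β))) χ * χ 1 := by
        conv_lhs => rw [h1]
        rw [Finset.sum_apply]
        rfl
      have h3 : ∑ χ ∈ irrSet (GL (Fin (e + m)) F), ip (rs (e + m) (mul (toCF α) (toCF β))) χ *
          (χ 1 * ((Fintype.card F : ℂ) ^ (Nat.choose (e + m) 2) /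
            Fintype.card (GL (Fin (e + m)) F))) = (hh (rs (e + m) (mul (toCF α) (toCF β))))⁻¹ := by
        rw [hh_inv, h2, Finset.sum_mul]
        apply Finset.sum_congr rfl
        intro χ _
        ring
      rw [h3, hh_mul (inv_toCF hα.isClass) (inv_toCF hβ.isClass) (supp_toCF α) hn
        (by rw [rs_toCF hα.isClass]; exact irr_one_ne hα)
        (by rw [rs_toCF hβ.isClass]; exact irr_one_ne hβ), rs_toCF hα.isClass,
        rs_toCF hβ.isClass, mul_inv]
    · intro χ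
      show (H.c ⟨e, α, hα⟩ ⟨m, β, hβ⟩ ⟨e + m, χ⟩ : ℂ) * (hh χ.1)⁻¹ = _
      rw [hC.c, hh_inv]
      congr 1
      unfold cc
      rw [if_pos rfl]
      obtain ⟨k, hk⟩ := (pos_mul_irr hn hα hβ).2 _ χ.2
      show ((⌊(ip (rs (e + m) (mul (toCF α) (toCF β))) χ.1).re⌋₊ : ℕ) : ℂ) = _
      rw [hk]
      simp

end Vale.Agent.P275.H85G
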