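import Vale.Agent.P275.H341.Gen

/-!
# The twist is an automorphism (row C4)
-/

set_option linter.style.haveILetI false
set_option linter.unusedSectionVars false

namespace Vale.Agent.P275.H85G

open scoped BigOperators MatrixGroups
open Module Matrix Vale.Agent.P275.H85 Vale.Agent.P275.H341

variable {F : Type} [Field F] [Fintype F] [DecidableEq F]

theorem det_utri {n : ℕ} (c : Matrix (Fin n) (Fin n) F) : (utri c).det = 1 := by
  rw [Matrix.det_of_isUpperTriangular]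
  · apply Finset.prod_eq_one
    intro i _
    simp [utri]
  · intro i j hij
    have h : (j : Fin n) < i := hij
    unfold utri
    rw [Matrix.of_apply, if_neg h.ne', if_neg (not_lt.2 h.le)]

theorem isUnit_utri {n : ℕ} (c : Matrix (Fin n) (Fin n) F) : IsUnit (utri c) := by
  rw [Matrix.isUnit_iff_isUnit_det, det_utri]
  exact isUnit_one

theorem tw_utri {n : ℕ} (κ : Fˣ →* ℂˣ) (c : Matrix (Fin n) (Fin n) F) (h : IsUnit (utri c)) :
    tw κ h.unit = 1 := by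
  unfold tw
  have h1 : Matrix.GeneralLinearGroup.det h.unit = 1 := by
    apply Units.ext
    rw [Matrix.GeneralLinearGroup.val_det_apply]
    exact det_utri c
  rw [h1, map_one, Units.val_one]

theorem whit_tw {n : ℕ} (κ : Fˣ →* ℂˣ) (ψ : AddChar F ℂ) (χ : GL (Fin n) F → ℂ) :
    whit ψ (fun g => tw κ g * χ g) = whit ψ χ := by
  have key : ∀ c : Matrix (Fin n) (Fin n) F,
      ez (fun g => tw κ g * χ g) (utri c) = ez χ (utri c) := by
    intro c
    unfold ez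
    rw [dif_pos (isUnit_utri c), dif_pos (isUnit_utri c)]
    show tw κ (isUnit_utri c).unit * χ (isUnit_utri c).unit = χ (isUnit_utri c).unit
    rw [tw_utri, one_mul]
  unfold whit
  simp only [key]

theorem tw_one {n : ℕ} (κ : Fˣ →* ℂˣ) : tw κ (1 : GL (Fin n) F) = 1 := by
  unfold tw
  rw [map_one, map_one, Units.val_one]

theorem hh_tw {n : ℕ} (κ : Fˣ →* ℂˣ) (χ : GL (Fin n) F → ℂ) :
    hh (fun g => tw κ g * χ g) = hh χ := by
  unfold hh
  show _ / (tw κ 1 * χ 1 * _) = _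
  rw [tw_one, one_mul]

theorem twI_twI (κ κ' : Fˣ →* ℂˣ) (h : κ' * κ = 1) (a : IrrF F) : twI κ (twI κ' a) = a := by
  obtain ⟨n, χ, hχ⟩ := a
  unfold twI
  have h1 : (fun g => tw κ g * (tw κ' g * χ g)) = χ := by
    funext g
    rw [← mul_assoc]
    have h2 : tw κ g * tw κ' g = 1 := by
      unfold tw
      rw [← Units.val_mul, ← MonoidHom.mul_apply, mul_comm, h, MonoidHom.one_apply, Units.val_one]
    rw [h2, one_mul]
  have h2 : (⟨fun g => tw κ g * (tw κ' g * χ g), Cu.irr_tw κ (Cu.irr_tw κ' hχ)⟩ :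
      {χ : GL (Fin n) F → ℂ // IsIrrChar χ}) = ⟨χ, hχ⟩ := Subtype.ext h1
  show (⟨n, ⟨fun g => tw κ g * (tw κ' g * χ g), Cu.irr_tw κ (Cu.irr_tw κ' hχ)⟩⟩ : IrrF F) = ⟨n, ⟨χ, hχ⟩⟩
  rw [h2]

theorem cc_tw (κ : Fˣ →* ℂˣ) (a b x : IrrF F) : cc (twI κ a) (twI κ b) (twI κ x) = cc a b x := by
  unfold cc
  show (if x.1 = a.1 + b.1 then ⌊(ip (rs x.1 (mul (toCF (fun g => tw κ g * a.2.1 g))
    (toCF (fun g => tw κ g * b.2.1 g)))) (fun g => tw κ g * x.2.1 g)).re⌋₊ else 0) = _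
  rw [toCF_tw κ a.2.2.isClass, toCF_tw κ b.2.2.isClass, mul_twf, rs_twf]
  have h1 := ip_twist (twh x.1 κ) (rs x.1 (mul (toCF a.2.1) (toCF b.2.1))) x.2.1
  have h2 : ip (fun g => tw κ g * rs x.1 (mul (toCF a.2.1) (toCF b.2.1)) g)
      (fun g => tw κ g * x.2.1 g) = ip (rs x.1 (mul (toCF a.2.1) (toCF b.2.1))) x.2.1 := h1
  rw [h2]

/-- **Row C4** -/
theorem rowC4 : RowC4 := by
  intro F _ _ _ H hC κ
  refine ⟨⟨⟨twI κ, twI κ⁻¹, fun a => twI_twI _ _ (mul_inv_cancel κ) a,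
    fun a => twI_twI _ _ (inv_mul_cancel κ) a⟩, fun a => ?_, fun a b x => ?_⟩, fun a => rfl,
    fun a => hh_tw κ a.2.1, fun ψ a => whit_tw κ ψ a.2.1⟩
  · show H.deg (twI κ a) = H.deg a
    rw [hC.deg, hC.deg]
    rfl
  · show H.c (twI κ a) (twI κ b) (twI κ x) = H.c a b x
    rw [hC.c, hC.c, cc_tw]

end Vale.Agent.P275.H85G
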