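import Vale.Agent.P275.H341.Rows5
import Vale.Agent.P275.H347.M1

/-!
# Row E6: the roots of unity
-/

set_option linter.style.haveILetI false
set_option linter.unusedSectionVars false

namespace Vale.Agent.P275.H85G

open scoped BigOperators MatrixGroups
open Module Matrix Vale.Agent.P275.H85 Vale.Agent.P275.H341

/-- the sum of all `s`-th roots of unity -/
theorem sum_all_roots {s : ℕ} (hs : 0 < s) :
    ∑ ζ ∈ Polynomial.nthRootsFinset s (1 : ℂ), ζ = if s = 1 then 1 else 0 := by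
  classical
  split_ifs with h1
  · subst h1
    have h2 : Polynomial.nthRootsFinset 1 (1 : ℂ) = {1} := by
      ext z
      rw [Polynomial.mem_nthRootsFinset Nat.one_pos, Finset.mem_singleton, pow_one]
    rw [h2, Finset.sum_singleton]
  · have hp := Complex.isPrimitiveRoot_exp s hs.ne'
    set w := Complex.exp (2 * Real.pi * Complex.I / s) with hw
    have hw1 : w ≠ 1 := hp.ne_one (by omega)
    have hws : w ^ s = 1 := hp.pow_eq_one
    have hw0 : w ≠ 0 := hp.ne_zero hs.ne'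
    have h3 : ∑ ζ ∈ Polynomial.nthRootsFinset s (1 : ℂ), ζ
        = ∑ ζ ∈ Polynomial.nthRootsFinset s (1 : ℂ), w * ζ := by
      symm
      refine Finset.sum_nbij' (fun ζ => w * ζ) (fun ζ => w⁻¹ * ζ) ?_ ?_ ?_ ?_ ?_
      · intro ζ hζ
        rw [Polynomial.mem_nthRootsFinset hs] at hζ ⊢
        rw [mul_pow, hζ, hws, mul_one]
      · intro ζ hζ
        rw [Polynomial.mem_nthRootsFinset hs] at hζ ⊢
        rw [mul_pow, hζ, inv_pow, hws, mul_one, _root_.inv_one]
      · intro ζ _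
        rw [← mul_assoc, inv_mul_cancel₀ hw0, one_mul]
      · intro ζ _
        rw [← mul_assoc, mul_inv_cancel₀ hw0, one_mul]
      · intro ζ _
        rfl
    rw [← Finset.mul_sum] at h3
    have h4 : (w - 1) * ∑ ζ ∈ Polynomial.nthRootsFinset s (1 : ℂ), ζ = 0 := by
      linear_combination -h3
    rcases mul_eq_zero.mp h4 with h5 | h5
    · exact absurd (by linear_combination h5) hw1
    · exact h5

/-- the sum of the primitive roots of unity is the Moebius function -/
theorem sum_primitive {n : ℕ} (hn : 0 < n) :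
    ∑ ζ ∈ primitiveRoots n ℂ, ζ = ((ArithmeticFunction.moebius n : ℤ) : ℂ) := by
  classical
  have h := Vale.Agent.P275.H347.moebius_of_sums hn 1 (fun t => ∑ ζ ∈ primitiveRoots t ℂ, ζ) (by
    intro s hs
    have hs0 : 0 < s := Nat.pos_of_dvd_of_pos hs hn
    rw [← sum_all_roots hs0, IsPrimitiveRoot.nthRoots_one_eq_biUnion_primitiveRoots,
      Finset.sum_biUnion]
    intro a _ b _ hab
    exact IsPrimitiveRoot.disjoint hab) n dvd_rfl
  rw [one_mul] at h
  exact h

section
variable {F E : Type} [Field F] [Fintype F] [DecidableEq F] [Field E] [Fintype E]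
  [DecidableEq E] [Algebra F E]

/-- the kernel of a character of the units -/
theorem ker_pow {κ : Fˣ →* ℂˣ} {D : ℕ} (hκ : orderOf κ = D) (hD : D ∣ Fintype.card F - 1)
    {x : Fˣ} (hx : κ x = 1) : x ^ ((Fintype.card F - 1) / D) = 1 := by
  classical
  obtain ⟨g, hg⟩ := IsCyclic.exists_generator (α := Fˣ)
  obtain ⟨c, rfl⟩ := Subgroup.mem_zpowers_iff.mp (hg x)
  have h1 : (κ g) ^ c = 1 := by rw [← map_zpow, hx]
  -- the order of the value at the generator
  have h2 : D ∣ orderOf (κ g) := by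
    rw [← hκ]
    apply orderOf_dvd_of_pow_eq_one
    apply MonoidHom.ext
    intro y
    obtain ⟨i, rfl⟩ := Subgroup.mem_zpowers_iff.mp (hg y)
    rw [MonoidHom.pow_apply, map_zpow, ← zpow_natCast, ← _root_.zpow_mul, mul_comm, _root_.zpow_mul,
      zpow_natCast, pow_orderOf_eq_one, _root_.one_zpow, MonoidHom.one_apply]
  have h3 : (orderOf (κ g) : ℤ) ∣ c := orderOf_dvd_iff_zpow_eq_one.mpr h1
  have h4 : (D : ℤ) ∣ c := (Int.natCast_dvd_natCast.mpr h2).trans h3
  obtain ⟨k, hk⟩ := h4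
  obtain ⟨e, he⟩ := hD
  have hD0 : 0 < D := by
    rcases Nat.eq_zero_or_pos D with h | h
    · rw [h, zero_mul] at he
      have : 1 < Fintype.card F := Fintype.one_lt_card
      omega
    · exact h
  have h5 : (Fintype.card F - 1) / D = e := by
    rw [he, Nat.mul_div_cancel_left _ hD0]
  rw [h5, hk, ← zpow_natCast, ← _root_.zpow_mul]
  have h6 : (D : ℤ) * k * e = ((Fintype.card F - 1 : ℕ) : ℤ) * k := by
    rw [he]
    push_cast
    ring
  have h7 : g ^ (Fintype.card F - 1) = 1 := by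
    rw [← Fintype.card_units]
    exact pow_card_eq_one
  rw [h6, _root_.zpow_mul, zpow_natCast, h7, _root_.one_zpow]

end

theorem rowE6 : RowE6 := by
  classical
  intro F E _ _ _ _ _ _ _ κ ε hκ hneg hε
  set D := finrank F E with hDdef
  have hD : 0 < D := Module.finrank_pos
  set q := Fintype.card F with hq
  have hq1 : 1 < q := Fintype.one_lt_card
  have hDq : D ∣ q - 1 := by
    rw [← hε, hq, ← Fintype.card_units]
    exact orderOf_dvd_card
  set φ₀ := FiniteField.frobeniusAlgEquivOfAlgebraic F E with hφ₀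
  have hφ₀o : orderOf φ₀ = D := FiniteField.orderOf_frobeniusAlgEquivOfAlgebraic F E
  have hφ₀s : ∀ φ : E ≃ₐ[F] E, ∃ k : ℕ, φ = φ₀ ^ k := by
    intro φ
    obtain ⟨k, hk⟩ := (FiniteField.bijective_frobeniusAlgEquivOfAlgebraic_pow F E).2 φ
    exact ⟨k, hk.symm⟩
  have hgen : ∀ φ : E ≃ₐ[F] E, φ ∈ Subgroup.zpowers φ₀ := by
    intro φ
    obtain ⟨k, hk⟩ := hφ₀s φ
    rw [hk]
    exact Subgroup.npow_mem_zpowers φ₀ k
  -- Hilbert 90
  have hn : Algebra.norm F (algebraMap F E ((ε⁻¹ : Fˣ) : F)) = 1 := by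
    rw [Algebra.norm_algebraMap, ← hDdef, ← Units.val_pow_eq_pow_val, inv_pow, ← hε,
      pow_orderOf_eq_one, _root_.inv_one, Units.val_one]
  obtain ⟨b₁, hb₁⟩ := groupCohomology.exists_div_of_norm_eq_one hgen hn
  have hb₁0 : (b₁ : E) ≠ 0 := b₁.ne_zero
  have hb : φ₀ (b₁ : E) = algebraMap F E (ε : F) * b₁ := by
    have h1 : φ₀ (b₁ : E) ≠ 0 := by
      intro h
      exact hb₁0 (by
        have h' := congrArg φ₀.symm h
        rw [AlgEquiv.symm_apply_apply, map_zero] at h'
        exact h')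
    have h2 : algebraMap F E ((ε⁻¹ : Fˣ) : F) = (algebraMap F E (ε : F))⁻¹ := by
      rw [Units.val_inv_eq_inv_val, map_inv₀]
    have h3 : algebraMap F E (ε : F) ≠ 0 := by
      rw [Ne, map_eq_zero]
      exact ε.ne_zero
    rw [h2, div_eq_iff h1] at hb₁
    have h4 : algebraMap F E (ε : F) * b₁
        = algebraMap F E (ε : F) * ((algebraMap F E (ε : F))⁻¹ * φ₀ (b₁ : E)) := by
      rw [← hb₁]
    rw [h4, ← mul_assoc, mul_inv_cancel₀ h3, one_mul]
  have hbk : ∀ k : ℕ, (φ₀ ^ k) (b₁ : E) = algebraMap F E (ε : F) ^ k * b₁ := by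
    intro k
    induction k with
    | zero => simp
    | succ k ih =>
      rw [pow_succ, AlgEquiv.mul_apply, hb, map_mul, AlgEquiv.commutes, ih, pow_succ]
      ring
  -- the norm
  have hbq : ∀ k : ℕ, (b₁ : E) ^ q ^ k = algebraMap F E (ε : F) ^ k * b₁ := by
    intro k
    rw [← hbk k]
    have h1 := congrFun (FiniteField.coe_frobeniusAlgEquivOfAlgebraic_iterate F E k) (b₁ : E)
    rw [AlgEquiv.coe_pow, h1]
  set e₀ : Fˣ := ε ^ (∑ i ∈ Finset.range D, i) with he₀
  have hN : algebraMap F E ((nrm F b₁ : Fˣ) : F) = algebraMap F E (e₀ : F) * (b₁ : E) ^ D := by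
    have h1 : ((nrm F b₁ : Fˣ) : F) = Algebra.norm F (b₁ : E) := rfl
    have h2 : ∀ i ∈ Finset.range D, (b₁ : E) ^ (Nat.card F ^ i)
        = algebraMap F E (ε : F) ^ i * b₁ := by
      intro i _
      rw [Nat.card_eq_fintype_card, ← hq, hbq]
    rw [h1, FiniteField.algebraMap_norm_eq_prod_pow F E, ← hDdef, Finset.prod_congr rfl h2,
      Finset.prod_mul_distrib, Finset.prod_const, Finset.card_range, Finset.prod_pow_eq_pow_sum,
      he₀, Units.val_pow_eq_pow_val, map_pow]
  have he₀2 : e₀ ^ 2 = 1 := by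
    rw [he₀, ← pow_mul, Finset.sum_range_id_mul_two, pow_mul, ← hε, pow_orderOf_eq_one, one_pow]
  have hκe₀ : κ e₀ = 1 := by
    have h1 : (e₀ : F) = 1 ∨ (e₀ : F) = -1 := by
      have h2 : (e₀ : F) * e₀ = 1 := by
        rw [← Units.val_mul, ← pow_two, he₀2, Units.val_one]
      exact mul_self_eq_one_iff.mp h2
    rcases h1 with h1 | h1
    · have h2 : e₀ = 1 := Units.ext h1
      rw [h2, map_one]
    · have h2 : e₀ = -1 := Units.ext h1
      rw [h2, hneg]
  have he₀p : e₀ ^ ((q - 1) / D) = 1 := ker_pow hκ hDq hκe₀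
  have hNp : (nrm F b₁) ^ ((q - 1) / D) = ε := by
    apply Units.ext
    apply (algebraMap F E).injective
    rw [Units.val_pow_eq_pow_val, map_pow, hN, mul_pow, ← map_pow, ← Units.val_pow_eq_pow_val,
      he₀p, Units.val_one, map_one, one_mul, ← pow_mul, Nat.mul_div_cancel' hDq]
    have h1 := hbq 1
    rw [pow_one, pow_one] at h1
    have h2 : (b₁ : E) ^ (q - 1) * b₁ = (b₁ : E) ^ q := by
      rw [← pow_succ, Nat.sub_add_cancel hq1.le]
    exact mul_right_cancel₀ hb₁0 (h2.trans h1)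
  have hUD : (κ (nrm F b₁)) ^ D = 1 := by
    rw [← MonoidHom.pow_apply, ← hκ, pow_orderOf_eq_one, MonoidHom.one_apply]
  have hUj : ∀ j : ℕ, (κ (nrm F b₁)) ^ j = 1 → D ∣ j := by
    intro j hj
    rw [← map_pow] at hj
    have h1 := ker_pow hκ hDq hj
    rw [← pow_mul, mul_comm, pow_mul, hNp] at h1
    rw [← hε]
    exact orderOf_dvd_of_pow_eq_one h1
  have hU : IsPrimitiveRoot (κ (nrm F b₁)) D := ⟨hUD, hUj⟩
  have hV : IsPrimitiveRoot (((κ (nrm F b₁) : ℂˣ) : ℂ)⁻¹) D := by
    have h1 : IsPrimitiveRoot ((κ (nrm F b₁) : ℂˣ) : ℂ) D := IsPrimitiveRoot.coe_units_iff.mpr hU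
    exact h1.inv
  -- the exponents
  have hex : ∀ φ : E ≃ₐ[F] E, orderOf φ = D → ∃ k : ℕ, φ ^ k = φ₀ := by
    intro φ hφ
    obtain ⟨k, rfl⟩ := hφ₀s φ
    have h1 : k.Coprime (orderOf φ₀) := by
      have h2 := orderOf_pow φ₀ (n := k)
      rw [hφ, hφ₀o] at h2
      have h3 : D.gcd k = 1 := by
        by_contra hne
        have h4 : 1 < D.gcd k := by
          have : 0 < D.gcd k := Nat.gcd_pos_of_pos_left _ hD
          omega
        have h5 := Nat.div_lt_self hD h4
        omega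
      rw [hφ₀o, Nat.coprime_comm]
      exact h3
    exact exists_pow_eq_self_of_coprime h1
  set e : (E ≃ₐ[F] E) → ℕ := fun φ => if h : ∃ k : ℕ, φ ^ k = φ₀ then h.choose else 0 with hedef
  have he : ∀ φ : E ≃ₐ[F] E, orderOf φ = D → φ ^ (e φ) = φ₀ := by
    intro φ hφ
    have h1 := hex φ hφ
    rw [hedef]
    dsimp only
    rw [dif_pos h1]
    exact h1.choose_spec
  have hke : ∀ (φ : E ≃ₐ[F] E) (k : ℕ), orderOf φ = D → φ = φ₀ ^ k → k * e φ ≡ 1 [MOD D] := by
    intro φ k hφ hk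
    have h1 := he φ hφ
    rw [← hφ₀o, ← pow_eq_pow_iff_modEq, pow_mul, ← hk, h1, pow_one]
  refine ⟨fun φ => b₁ ^ (e φ), ?_, ?_⟩
  · intro φ
    by_cases hφ : orderOf φ = D
    · left
      obtain ⟨k, hk⟩ := hφ₀s φ
      have h1 := hke φ k hφ hk
      rw [Units.val_pow_eq_pow_val, map_pow]
      have h2 : φ (b₁ : E) = algebraMap F E (ε : F) ^ k * b₁ := by
        rw [hk]
        exact hbk k
      have h3 : ε ^ (k * e φ) = ε := by
        rw [← hε, ← pow_eq_pow_iff_modEq, pow_one] at h1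
        exact h1
      have h4 : (ε : F) ^ (k * e φ) = ε := by
        rw [← Units.val_pow_eq_pow_val, h3]
      rw [h2, mul_pow, ← pow_mul, ← map_pow, h4]
    · right
      exact hφ
  · have h1 : ∀ φ : E ≃ₐ[F] E, ((κ (nrm F (b₁ ^ (e φ))) : ℂˣ) : ℂ)⁻¹
        = (((κ (nrm F b₁) : ℂˣ) : ℂ)⁻¹) ^ (e φ) := by
      intro φ
      rw [map_pow, map_pow, Units.val_pow_eq_pow_val, inv_pow]
    simp only [h1]
    rw [← Finset.sum_filter, ← sum_primitive hD]
    have hinj : ∀ φ ∈ Finset.univ.filter (fun φ : E ≃ₐ[F] E => orderOf φ = D),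
        ∀ ψ ∈ Finset.univ.filter (fun φ : E ≃ₐ[F] E => orderOf φ = D),
        (((κ (nrm F b₁) : ℂˣ) : ℂ)⁻¹) ^ (e φ) = (((κ (nrm F b₁) : ℂˣ) : ℂ)⁻¹) ^ (e ψ) → φ = ψ := by
      intro φ hφ ψ hψ h
      have hφ' := (Finset.mem_filter.mp hφ).2
      have hψ' := (Finset.mem_filter.mp hψ).2
      rw [inv_pow, inv_pow, _root_.inv_inj, ← Units.val_pow_eq_pow_val, ← Units.val_pow_eq_pow_val,
        Units.val_inj, pow_eq_pow_iff_modEq, ← hU.eq_orderOf] at h
      obtain ⟨k, hk⟩ := hφ₀s φ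
      obtain ⟨l, hl⟩ := hφ₀s ψ
      have h2 := hke φ k hφ' hk
      have h3 := hke ψ l hψ' hl
      -- `k = l` modulo `D`
      have h4 : k ≡ l [MOD D] := by
        have h5 : k * (l * e ψ) ≡ k * 1 [MOD D] := h3.mul_left k
        have h6 : l * (k * e φ) ≡ l * 1 [MOD D] := h2.mul_left l
        have h7 : k * (l * e ψ) ≡ l * (k * e φ) [MOD D] := by
          have h8 : k * (l * e ψ) = (k * l) * e ψ := by ring
          have h9 : l * (k * e φ) = (k * l) * e φ := by ring
          rw [h8, h9]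
          exact (h.symm).mul_left (k * l)
        rw [mul_one] at h5 h6
        exact (h5.symm.trans h7).trans h6
      rw [hk, hl, pow_eq_pow_iff_modEq, hφ₀o]
      exact h4
    have himg : (Finset.univ.filter (fun φ : E ≃ₐ[F] E => orderOf φ = D)).image
        (fun φ => (((κ (nrm F b₁) : ℂˣ) : ℂ)⁻¹) ^ (e φ)) = primitiveRoots D ℂ := by
      apply Finset.eq_of_subset_of_card_le
      · intro ζ hζ
        obtain ⟨φ, hφ, rfl⟩ := Finset.mem_image.mp hζ
        have hφ' := (Finset.mem_filter.mp hφ).2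
        rw [mem_primitiveRoots hD]
        apply hV.pow_of_coprime
        obtain ⟨k, hk⟩ := hφ₀s φ
        have h2 := hke φ k hφ' hk
        have h3 : Nat.gcd (k * e φ) D = Nat.gcd 1 D := h2.gcd_eq
        rw [Nat.gcd_one_left] at h3
        exact Nat.Coprime.coprime_mul_left h3
      · rw [Finset.card_image_of_injOn hinj, Complex.card_primitiveRoots]
        have h2 : D ∣ Fintype.card (E ≃ₐ[F] E) := by
          rw [← hφ₀o]
          exact orderOf_dvd_card
        rw [IsCyclic.card_orderOf_eq_totient h2]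
    rw [← himg, Finset.sum_image hinj]

end Vale.Agent.P275.H85G

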