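import Mathlib

/-!
# Eigenspaces of an operator of finite order and a twisted shift
-/

set_option linter.style.haveILetI false
set_option linter.unusedSectionVars false

namespace Vale.Agent.P275.H85G

open scoped BigOperators
open Module

/-- an operator `y` with `y ^ e = 1` and an invertible `A` with `A y = ε y A` -/
structure Dt {F V : Type} [Field F] [AddCommGroup V] [Module F V] (e : ℕ) (ε : F)
    (y A B : Module.End F V) : Prop where
  he : 1 ≤ e
  hε : IsPrimitiveRoot ε e
  he0 : (e : F) ≠ 0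
  hy : y ^ e = 1
  h1 : A * B = 1
  h2 : B * A = 1
  hA : A * y = ε • (y * A)

section
variable {F V : Type} [Field F] [AddCommGroup V] [Module F V] {e : ℕ} {ε : F}
  {y A B : Module.End F V}

/-- the projector -/
noncomputable def Pj (e : ℕ) (ε : F) (y : Module.End F V) (i : ℕ) : Module.End F V :=
  (e : F)⁻¹ • ∑ l ∈ Finset.range e, (ε ^ (i * l)) • y ^ l

theorem y_pj (h : Dt e ε y A B) (i : ℕ) : ε ^ i • (y * Pj e ε y i) = Pj e ε y i := by
  unfold Pj
  rw [mul_smul_comm, smul_comm, Finset.mul_sum, Finset.smul_sum]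
  congr 1
  have h1 : ∀ l ∈ Finset.range e, ε ^ i • (y * (ε ^ (i * l) • y ^ l))
      = (fun l => ε ^ (i * l) • y ^ l) (l + 1) := by
    intro l _
    dsimp only
    rw [mul_smul_comm, smul_smul, ← pow_add, ← pow_succ']
    congr 2
    ring
  rw [Finset.sum_congr rfl h1]
  have h2 := Finset.sum_range_succ (fun l => ε ^ (i * l) • y ^ l) e
  have h3 := Finset.sum_range_succ' (fun l => ε ^ (i * l) • y ^ l) e
  rw [h2] at h3
  have h4 : ε ^ (i * e) • y ^ e = ε ^ (i * 0) • y ^ 0 := by
    rw [h.hy, mul_comm i e, pow_mul, h.hε.pow_eq_one, one_pow, mul_zero, pow_zero, pow_zero]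
  rw [h4] at h3
  exact (add_right_cancel h3).symm

theorem sum_pj (h : Dt e ε y A B) : ∑ i ∈ Finset.range e, Pj e ε y i = 1 := by
  unfold Pj
  rw [← Finset.smul_sum, Finset.sum_comm]
  have h1 : ∀ l ∈ Finset.range e, ∑ i ∈ Finset.range e, (ε ^ (i * l)) • y ^ l
      = if l = 0 then (e : F) • (1 : Module.End F V) else 0 := by
    intro l hl
    rw [← Finset.sum_smul]
    split_ifs with h0
    · subst h0
      simp
    · have h2 : ε ^ l ≠ 1 := h.hε.pow_ne_one_of_pos_of_lt h0 (Finset.mem_range.mp hl)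
      have h3 : ∑ i ∈ Finset.range e, ε ^ (i * l) = 0 := by
        have h4 : ∀ i ∈ Finset.range e, ε ^ (i * l) = (ε ^ l) ^ i := by
          intro i _
          rw [← pow_mul, mul_comm]
        rw [Finset.sum_congr rfl h4]
        have h5 := geom_sum_mul (ε ^ l) e
        have h6 : (ε ^ l) ^ e = 1 := by
          rw [← pow_mul, mul_comm, pow_mul, h.hε.pow_eq_one, one_pow]
        rw [h6, sub_self] at h5
        rcases mul_eq_zero.mp h5 with h7 | h7
        · exact h7
        · exact absurd (sub_eq_zero.mp h7) h2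
      rw [h3, zero_smul]
  rw [Finset.sum_congr rfl h1, Finset.sum_ite_eq', if_pos (Finset.mem_range.mpr h.he),
    smul_smul, inv_mul_cancel₀ h.he0, one_smul]

theorem A_pow_y (h : Dt e ε y A B) (i : ℕ) : A ^ i * y = ε ^ i • (y * A ^ i) := by
  induction i with
  | zero => simp
  | succ i ih =>
    rw [pow_succ', mul_assoc, ih, mul_smul_comm, ← mul_assoc, h.hA, smul_mul_assoc, smul_smul,
      mul_assoc, ← pow_succ, ← pow_succ']

theorem B_y (h : Dt e ε y A B) : y * B = ε • (B * y) := by
  have h1 : B * (A * y) * B = B * (ε • (y * A)) * B := by rw [h.hA]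
  rw [← mul_assoc, h.h2, one_mul, mul_smul_comm, smul_mul_assoc, mul_assoc, mul_assoc, h.h1,
    mul_one] at h1
  exact h1

theorem B_pow_y (h : Dt e ε y A B) (i : ℕ) : y * B ^ i = ε ^ i • (B ^ i * y) := by
  induction i with
  | zero => simp
  | succ i ih =>
    rw [pow_succ, ← mul_assoc, ih, smul_mul_assoc, mul_assoc, B_y h, mul_smul_comm, smul_smul,
      ← mul_assoc, ← pow_succ, ← pow_succ]

theorem AB_pow (h : Dt e ε y A B) (i : ℕ) : A ^ i * B ^ i = 1 := by
  induction i with
  | zero => simp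
  | succ i ih =>
    rw [pow_succ, pow_succ', mul_assoc, ← mul_assoc A B, h.h1, one_mul, ih]

theorem BA_pow (h : Dt e ε y A B) (i : ℕ) : B ^ i * A ^ i = 1 := by
  induction i with
  | zero => simp
  | succ i ih =>
    rw [pow_succ, pow_succ', mul_assoc, ← mul_assoc B A, h.h2, one_mul, ih]

/-- the projector on an eigenvector -/
theorem pj_apply (h : Dt e ε y A B) {i j : ℕ} (hi : i < e) (hj : j < e) {v : V}
    (hv : ε ^ i • y v = v) : Pj e ε y j v = if i = j then v else 0 := by
  have hε0 : ε ≠ 0 := h.hε.ne_zero (by have := h.he; omega)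
  have hy1 : y v = (ε ^ i)⁻¹ • v := by
    conv_rhs => rw [← hv]
    rw [smul_smul, inv_mul_cancel₀ (pow_ne_zero _ hε0), one_smul]
  have hyl : ∀ l : ℕ, (y ^ l) v = ((ε ^ i)⁻¹) ^ l • v := by
    intro l
    induction l with
    | zero => simp
    | succ l ih =>
      rw [pow_succ, Module.End.mul_apply, hy1, map_smul, ih, smul_smul, pow_succ, mul_comm]
  unfold Pj
  rw [LinearMap.smul_apply, LinearMap.sum_apply]
  have h1 : ∀ l ∈ Finset.range e, ((ε ^ (j * l)) • y ^ l) v = ((ε ^ j * (ε ^ i)⁻¹) ^ l) • v := by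
    intro l _
    rw [LinearMap.smul_apply, hyl, smul_smul, pow_mul, ← mul_pow]
  rw [Finset.sum_congr rfl h1, ← Finset.sum_smul, smul_smul]
  split_ifs with hij
  · subst hij
    rw [mul_inv_cancel₀ (pow_ne_zero _ hε0)]
    simp only [one_pow, Finset.sum_const, Finset.card_range, nsmul_eq_mul, mul_one]
    rw [inv_mul_cancel₀ h.he0, one_smul]
  · have h2 : ε ^ j * (ε ^ i)⁻¹ ≠ 1 := by
      intro h3
      apply hij
      have h4 : ε ^ j = ε ^ i := by
        have := congrArg (· * ε ^ i) h3
        simpa [mul_assoc, inv_mul_cancel₀ (pow_ne_zero i hε0)] using this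
      exact (h.hε.pow_inj hj hi h4).symm
    have h5 := geom_sum_mul (ε ^ j * (ε ^ i)⁻¹) e
    have h6 : (ε ^ j * (ε ^ i)⁻¹) ^ e = 1 := by
      rw [mul_pow, inv_pow, ← pow_mul, ← pow_mul, mul_comm j e, mul_comm i e, pow_mul, pow_mul,
        h.hε.pow_eq_one, one_pow, one_pow, inv_one, mul_one]
    rw [h6, sub_self] at h5
    rcases mul_eq_zero.mp h5 with h7 | h7
    · rw [h7, mul_zero, zero_smul]
    · exact absurd (sub_eq_zero.mp h7) h2

/-- the fixed space -/
def Wf (y : Module.End F V) : Submodule F V := LinearMap.ker (y - 1)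

theorem mem_Wf {v : V} : v ∈ Wf y ↔ y v = v := by
  unfold Wf
  rw [LinearMap.mem_ker, LinearMap.sub_apply, Module.End.one_apply, sub_eq_zero]

theorem B_mem (h : Dt e ε y A B) (i : ℕ) (v : V) : (B ^ i) (Pj e ε y i v) ∈ Wf y := by
  rw [mem_Wf, ← Module.End.mul_apply, B_pow_y h, LinearMap.smul_apply, Module.End.mul_apply,
    ← map_smul]
  congr 1
  have h1 := y_pj h i
  have h2 := congrArg (fun T : Module.End F V => T v) h1
  exact h2

/-- the decomposition -/
noncomputable def Psi (h : Dt e ε y A B) : V ≃ₗ[F] (Fin e → Wf y) where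
  toFun v := fun i => ⟨(B ^ (i : ℕ)) (Pj e ε y i v), B_mem h i v⟩
  map_add' v w := by
    funext i
    apply Subtype.ext
    simp only [map_add, Pi.add_apply, Submodule.coe_add]
  map_smul' a v := by
    funext i
    apply Subtype.ext
    simp only [map_smul, Pi.smul_apply, Submodule.coe_smul, RingHom.id_apply]
  invFun w := ∑ i : Fin e, (A ^ (i : ℕ)) (w i : V)
  left_inv v := by
    have h1 : ∀ i : Fin e, (A ^ (i : ℕ)) ((B ^ (i : ℕ)) (Pj e ε y i v)) = Pj e ε y i v := by
      intro i
      rw [← Module.End.mul_apply, AB_pow h, Module.End.one_apply]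
    simp only [h1]
    rw [Fin.sum_univ_eq_sum_range (fun i => Pj e ε y i v) e, ← LinearMap.sum_apply, sum_pj h,
      Module.End.one_apply]
  right_inv w := by
    funext j
    apply Subtype.ext
    dsimp only
    have h1 : ∀ i : Fin e, Pj e ε y j ((A ^ (i : ℕ)) (w i : V))
        = if i = j then (A ^ (i : ℕ)) (w i : V) else 0 := by
      intro i
      have h2 : ε ^ (i : ℕ) • y ((A ^ (i : ℕ)) (w i : V)) = (A ^ (i : ℕ)) (w i : V) := by
        have h3 : (A ^ (i : ℕ) * y) (w i : V) = (ε ^ (i : ℕ) • (y * A ^ (i : ℕ))) (w i : V) := by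
          rw [A_pow_y h]
        rw [Module.End.mul_apply, mem_Wf.mp (w i).2, LinearMap.smul_apply,
          Module.End.mul_apply] at h3
        exact h3.symm
      rw [pj_apply h i.2 j.2 h2]
      by_cases hij : i = j
      · rw [if_pos hij, if_pos (congrArg Fin.val hij)]
      · rw [if_neg hij, if_neg (fun hh => hij (Fin.ext hh))]
    rw [map_sum, Finset.sum_congr rfl (fun i _ => h1 i), Finset.sum_ite_eq' , if_pos
      (Finset.mem_univ _), ← Module.End.mul_apply, BA_pow h, Module.End.one_apply]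

end

end Vale.Agent.P275.H85G
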