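import Mathlib

/-!
# Operators killed by an irreducible polynomial
-/

set_option linter.style.haveILetI false
set_option linter.unusedSectionVars false

namespace Vale.Agent.P275.H85G

open scoped BigOperators
open Module Polynomial

/-- two operators killed by the same irreducible polynomial on spaces of the same dimension -/
theorem exists_comm_equiv {F : Type} [Field F] {p : F[X]} (hp : Irreducible p) {W W' : Type}
    [AddCommGroup W] [Module F W] [Module.Finite F W] [AddCommGroup W'] [Module F W']
    [Module.Finite F W'] (H : Module.End F W) (H' : Module.End F W') (h : aeval H p = 0)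
    (h' : aeval H' p = 0) (hfr : finrank F W = finrank F W') :
    ∃ f : W ≃ₗ[F] W', ∀ w, f (H w) = H' (f w) := by
  haveI : Fact (Irreducible p) := ⟨hp⟩
  have key : ∀ (U : Type) [AddCommGroup U] [Module F U] (T : Module.End F U), aeval T p = 0 →
      ∃ g : AdjoinRoot p →ₐ[F] Module.End F U, g (AdjoinRoot.root p) = T := by
    intro U _ _ T hT
    have hI : ∀ a : F[X], a ∈ Ideal.span {p} → aeval T a = 0 := by
      intro a ha
      obtain ⟨b, rfl⟩ := Ideal.mem_span_singleton'.mp ha
      rw [map_mul, hT, mul_zero]
    have h2 : Ideal.Quotient.liftₐ (Ideal.span {p}) (aeval T) hI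
        (Ideal.Quotient.mk (Ideal.span {p}) X) = aeval T X := rfl
    exact ⟨Ideal.Quotient.liftₐ (Ideal.span {p}) (aeval T) hI, h2.trans (aeval_X T)⟩
  obtain ⟨g, hg⟩ := key W H h
  obtain ⟨g', hg'⟩ := key W' H' h'
  letI : Module (AdjoinRoot p) W := Module.compHom W (g : AdjoinRoot p →+* Module.End F W)
  letI : Module (AdjoinRoot p) W' := Module.compHom W' (g' : AdjoinRoot p →+* Module.End F W')
  have hs : ∀ (k : AdjoinRoot p) (w : W), k • w = g k w := fun _ _ => rfl
  have hs' : ∀ (k : AdjoinRoot p) (w : W'), k • w = g' k w := fun _ _ => rfl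
  haveI : IsScalarTower F (AdjoinRoot p) W := ⟨fun a k w => by
    rw [hs, hs, map_smul, LinearMap.smul_apply]⟩
  haveI : IsScalarTower F (AdjoinRoot p) W' := ⟨fun a k w => by
    rw [hs', hs', map_smul, LinearMap.smul_apply]⟩
  haveI : Module.Finite (AdjoinRoot p) W := Module.Finite.of_restrictScalars_finite F _ W
  haveI : Module.Finite (AdjoinRoot p) W' := Module.Finite.of_restrictScalars_finite F _ W'
  have e1 : finrank F (AdjoinRoot p) * finrank (AdjoinRoot p) W = finrank F W :=
    Module.finrank_mul_finrank F (AdjoinRoot p) W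
  have e2 : finrank F (AdjoinRoot p) * finrank (AdjoinRoot p) W' = finrank F W' :=
    Module.finrank_mul_finrank F (AdjoinRoot p) W'
  haveI : Module.Finite F (AdjoinRoot p) := (AdjoinRoot.powerBasis hp.ne_zero).finite
  have hpos : 0 < finrank F (AdjoinRoot p) := Module.finrank_pos
  have e3 : finrank (AdjoinRoot p) W = finrank (AdjoinRoot p) W' := by
    rw [← hfr, ← e1] at e2
    exact (Nat.eq_of_mul_eq_mul_left hpos e2).symm
  let f := LinearEquiv.ofFinrankEq W W' e3
  refine ⟨f.restrictScalars F, fun w => ?_⟩
  have h1 : H w = AdjoinRoot.root p • w := by rw [hs, hg]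
  have h2 : H' (f w) = AdjoinRoot.root p • f w := by rw [hs', hg']
  have h3 : f (H w) = H' (f w) := by rw [h1, h2, map_smul]
  exact h3

/-- the polynomial `X ^ δ - d` is irreducible if a root has `δ` different multiples as conjugates -/
theorem irreducible_kummer {F E : Type} [Field F] [Field E] [Algebra F E] [Module.Finite F E]
    (φ : E ≃ₐ[F] E) {δ : ℕ} (hδ : 1 ≤ δ) {ε : F} (hε : IsPrimitiveRoot ε δ) {β : E} (hβ : β ≠ 0)
    (hφ : φ β = algebraMap F E ε * β) {d : F} (hd : algebraMap F E d = β ^ δ) :
    Irreducible (X ^ δ - C d : F[X]) := by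
  classical
  have hint : IsIntegral F β := IsIntegral.of_finite F β
  have hm : (X ^ δ - C d : F[X]).Monic := monic_X_pow_sub_C d (by omega)
  have hdeg : (X ^ δ - C d : F[X]).natDegree = δ := natDegree_X_pow_sub_C
  have hroot : aeval β (X ^ δ - C d : F[X]) = 0 := by
    rw [map_sub, map_pow, aeval_X, aeval_C, hd, sub_self]
  have hdvd : minpoly F β ∣ (X ^ δ - C d : F[X]) := minpoly.dvd F β hroot
  have hφk : ∀ k : ℕ, (φ ^ k) β = algebraMap F E ε ^ k * β := by
    intro k
    induction k with
    | zero => simp
    | succ k ih =>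
      rw [pow_succ, AlgEquiv.mul_apply, hφ, map_mul, AlgEquiv.commutes, ih, pow_succ]
      ring
  have hle : δ ≤ (minpoly F β).natDegree := by
    have h1 : ((minpoly F β).map (algebraMap F E)).natDegree = (minpoly F β).natDegree :=
      natDegree_map _
    rw [← h1]
    set Z : Finset E := (Finset.range δ).image (fun k => algebraMap F E ε ^ k * β) with hZ
    have hcard : Z.card = δ := by
      rw [hZ, Finset.card_image_of_injOn, Finset.card_range]
      intro i hi j hj hij
      have h2 : algebraMap F E ε ^ i = algebraMap F E ε ^ j := mul_right_cancel₀ hβ hij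
      rw [← map_pow, ← map_pow] at h2
      exact hε.pow_inj (by simpa using hi) (by simpa using hj) ((algebraMap F E).injective h2)
    rw [← hcard]
    apply card_le_degree_of_subset_roots
    intro z hz
    have hz' : z ∈ Z := hz
    rw [hZ] at hz'
    obtain ⟨k, _, rfl⟩ := Finset.mem_image.mp hz'
    rw [mem_roots (Polynomial.map_ne_zero (minpoly.ne_zero hint)), IsRoot.def, eval_map_algebraMap,
      ← hφk k]
    have h2 : aeval ((φ ^ k) β) (minpoly F β) = (φ ^ k) (aeval β (minpoly F β)) := by
      exact aeval_algHom_apply (φ ^ k : E ≃ₐ[F] E).toAlgHom β (minpoly F β)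
    rw [h2, minpoly.aeval, map_zero]
  have heq : (X ^ δ - C d : F[X]) = minpoly F β :=
    eq_of_monic_of_dvd_of_natDegree_le (minpoly.monic hint) hm hdvd (by rw [hdeg]; exact hle)
  rw [heq]
  exact minpoly.irreducible hint

end Vale.Agent.P275.H85G
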