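import Vale.Agent.P275.H633.FixD
import Vale.Agent.P275.H93.E4
import Vale.Agent.P275.H85G.X3a
import Vale.Agent.P275.H85G.X3b

/-!
# Row X3: conjugacy of the elements of the model
-/

set_option linter.style.haveILetI false
set_option linter.unusedSectionVars false

namespace Vale.Agent.P275.H85G

open scoped BigOperators MatrixGroups
open Module Matrix Vale.Agent.P275.H85 Vale.Agent.P275.H341 Vale.Agent.P275.H633

section
variable {F : Type} [Field F] {n : ℕ}

/-- the action on the vectors -/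
noncomputable def lin (g : GL (Fin n) F) : Module.End F (Fin n → F) :=
  Matrix.toLinAlgEquiv' (g : Matrix (Fin n) (Fin n) F)

theorem lin_mul (g h : GL (Fin n) F) : lin (g * h) = lin g * lin h := by
  unfold lin
  rw [Units.val_mul, map_mul]

theorem lin_one : lin (1 : GL (Fin n) F) = 1 := by
  unfold lin
  rw [Units.val_one, map_one]

theorem lin_pow (g : GL (Fin n) F) (k : ℕ) : lin (g ^ k) = lin g ^ k := by
  unfold lin
  rw [Units.val_pow_eq_pow_val, map_pow]

theorem lin_scalar (c : Fˣ) :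
    lin (Matrix.GeneralLinearGroup.scalar (Fin n) c) = (c : F) • (1 : Module.End F (Fin n → F)) := by
  unfold lin
  have h1 : ((Matrix.GeneralLinearGroup.scalar (Fin n) c : GL (Fin n) F) :
      Matrix (Fin n) (Fin n) F) = (c : F) • (1 : Matrix (Fin n) (Fin n) F) := by
    rw [Matrix.smul_one_eq_diagonal]
    rfl
  rw [h1, map_smul, map_one]

theorem lin_injective : Function.Injective (lin : GL (Fin n) F → Module.End F (Fin n → F)) := by
  intro g h hgh
  exact Units.ext (Matrix.toLinAlgEquiv'.injective hgh)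

/-- a linear equivalence comes from a matrix -/
theorem exists_lin (T : (Fin n → F) ≃ₗ[F] (Fin n → F)) :
    ∃ x : GL (Fin n) F, lin x = (T : Module.End F (Fin n → F)) := by
  have h1 : (T : Module.End F (Fin n → F)) * (T.symm : Module.End F (Fin n → F)) = 1 :=
    LinearMap.ext fun v => T.apply_symm_apply v
  have h2 : (T.symm : Module.End F (Fin n → F)) * (T : Module.End F (Fin n → F)) = 1 :=
    LinearMap.ext fun v => T.symm_apply_apply v
  refine ⟨⟨Matrix.toLinAlgEquiv'.symm (T : Module.End F (Fin n → F)),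
    Matrix.toLinAlgEquiv'.symm (T.symm : Module.End F (Fin n → F)), ?_, ?_⟩, ?_⟩
  · rw [← map_mul, h1, map_one]
  · rw [← map_mul, h2, map_one]
  · unfold lin
    exact Matrix.toLinAlgEquiv'.apply_symm_apply _

end

section
variable {F V : Type} [Field F] [AddCommGroup V] [Module F V]

/-- the data for `h` -/
theorem mkDt {e δ : ℕ} (he : 1 ≤ e) (hδ : 1 ≤ δ) {ω d c : F} (hω : IsPrimitiveRoot ω (e * δ))
    (hd : d ≠ 0) (hc : c = d ^ e) {H A B : Module.End F V} (hH : H ^ (e * δ) = c • 1)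
    (h1 : A * B = 1) (h2 : B * A = 1) (hA : A * H = ω • (H * A)) :
    Dt e (ω ^ δ) (d⁻¹ • H ^ δ) A B := by
  have hε : IsPrimitiveRoot (ω ^ δ) e := hω.pow (by positivity) (mul_comm e δ)
  haveI : NeZero e := ⟨by omega⟩
  refine ⟨he, hε, ?_, ?_, h1, h2, ?_⟩
  · exact (hε.neZero').out
  · rw [smul_pow, ← pow_mul, mul_comm δ e, hH, smul_smul, hc, inv_pow,
      inv_mul_cancel₀ (pow_ne_zero _ hd), one_smul]
  · have h3 : ∀ k : ℕ, A * H ^ k = ω ^ k • (H ^ k * A) := by
      intro k
      induction k with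
      | zero => simp
      | succ k ih =>
        rw [pow_succ, ← mul_assoc, ih, smul_mul_assoc, mul_assoc, hA, mul_smul_comm, smul_smul,
          ← mul_assoc, ← pow_succ, ← pow_succ]
    rw [mul_smul_comm, h3, smul_mul_assoc, smul_comm]

variable {e : ℕ} {ε : F} {y A B H : Module.End F V}

/-- the projectors commute with `H` -/
theorem pj_comm (hy : H * y = y * H) (i : ℕ) : H * Pj e ε y i = Pj e ε y i * H := by
  have h1 : ∀ l : ℕ, H * y ^ l = y ^ l * H := by
    intro l
    induction l with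
    | zero => simp
    | succ l ih => rw [pow_succ, ← mul_assoc, ih, mul_assoc, hy, ← mul_assoc]
  unfold Pj
  rw [mul_smul_comm, smul_mul_assoc, Finset.mul_sum, Finset.sum_mul]
  congr 1
  apply Finset.sum_congr rfl
  intro l _
  rw [mul_smul_comm, smul_mul_assoc, h1]

/-- `H` on the fixed space -/
noncomputable def Hw (hy : H * y = y * H) : Module.End F (Wf y) :=
  H.restrict (fun v hv => by
    rw [mem_Wf] at hv ⊢
    have h1 : (H * y) v = (y * H) v := by rw [hy]
    rw [Module.End.mul_apply, Module.End.mul_apply, hv] at h1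
    exact h1.symm)

theorem Hw_apply (hy : H * y = y * H) (w : Wf y) : ((Hw hy w : Wf y) : V) = H (w : V) := rfl

theorem Hw_pow (hy : H * y = y * H) (k : ℕ) (w : Wf y) :
    (((Hw hy ^ k) w : Wf y) : V) = (H ^ k) (w : V) := by
  induction k generalizing w with
  | zero => rfl
  | succ k ih => rw [pow_succ, pow_succ, Module.End.mul_apply, Module.End.mul_apply, ih, Hw_apply]

/-- `Psi` and `H` -/
theorem Psi_H (h : Dt e ε y A B) (hy : H * y = y * H) {ω : F} (hω : ω ≠ 0)
    (hA : A * H = ω • (H * A)) (v : V) (i : Fin e) :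
    Psi h (H v) i = (ω⁻¹) ^ (i : ℕ) • Hw hy (Psi h v i) := by
  have hB : B * H = ω⁻¹ • (H * B) := by
    have h3 : B * (A * H) * B = B * (ω • (H * A)) * B := by rw [hA]
    rw [← mul_assoc, h.h2, one_mul, mul_smul_comm, smul_mul_assoc, mul_assoc, mul_assoc, h.h1,
      mul_one] at h3
    rw [h3, smul_smul, inv_mul_cancel₀ hω, one_smul]
  have hBk : ∀ k : ℕ, B ^ k * H = (ω⁻¹) ^ k • (H * B ^ k) := by
    intro k
    induction k with
    | zero => simp
    | succ k ih =>
      rw [pow_succ', mul_assoc, ih, mul_smul_comm, ← mul_assoc, hB, smul_mul_assoc, smul_smul,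
        mul_assoc, ← pow_succ, ← pow_succ']
  apply Subtype.ext
  have h1 : ((Psi h (H v) i : Wf y) : V) = (B ^ (i : ℕ)) (Pj e ε y i (H v)) := rfl
  have h2 : ((Psi h v i : Wf y) : V) = (B ^ (i : ℕ)) (Pj e ε y i v) := rfl
  rw [h1, Submodule.coe_smul, Hw_apply, h2]
  have h4 : Pj e ε y i (H v) = H (Pj e ε y i v) := by
    have h5 : (H * Pj e ε y i) v = (Pj e ε y i * H) v := by rw [pj_comm hy]
    exact h5.symm
  rw [h4]
  have h6 : (B ^ (i : ℕ) * H) (Pj e ε y i v)
      = ((ω⁻¹) ^ (i : ℕ) • (H * B ^ (i : ℕ))) (Pj e ε y i v) := by rw [hBk]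
  exact h6

end

theorem rowX3 : RowX3 := by
  classical
  intro F E _ _ _ _ _ _ _ φ e r n ω c β he hr hn hφ hω hβ hc h h' hh hh' ha ha'
  obtain ⟨a, ha⟩ := ha
  obtain ⟨a', ha'⟩ := ha'
  haveI : Module.Finite F E := Module.Finite.of_finite
  set δ := finrank F E with hδdef
  have hδ : 1 ≤ δ := Module.finrank_pos
  have hωp : IsPrimitiveRoot (ω : F) (e * δ) := by
    rw [IsPrimitiveRoot.coe_units_iff, ← hω]
    exact IsPrimitiveRoot.orderOf ω
  have hω0 : (ω : F) ≠ 0 := ω.ne_zero
  -- `β ^ δ` comes from the small field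
  have hfix : φ ((β : E) ^ δ) = (β : E) ^ δ := by
    rw [map_pow, hβ, mul_pow, ← map_pow, ← pow_mul, hωp.pow_eq_one, map_one, one_mul]
  obtain ⟨d, hd⟩ := Vale.Agent.P275.H93.fixed_gen φ hφ hfix
  have hd0 : d ≠ 0 := by
    rintro rfl
    rw [map_zero] at hd
    exact pow_ne_zero δ β.ne_zero hd.symm
  have hcd : (c : F) = d ^ e := by
    apply (algebraMap F E).injective
    have h1 : algebraMap F E (c : F) = ((β ^ (e * δ) : Eˣ) : E) := by
      rw [← hc]
      rfl
    rw [h1, Units.val_pow_eq_pow_val, map_pow, hd, ← pow_mul, mul_comm]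
  have hirr : Irreducible (Polynomial.X ^ δ - Polynomial.C d : Polynomial F) := by
    have hε : IsPrimitiveRoot ((ω : F) ^ e) δ := hωp.pow (by positivity) rfl
    exact irreducible_kummer φ hδ hε β.ne_zero hβ hd
  -- the operators
  have hop : ∀ g b : GL (Fin n) F, g ^ (e * δ) = Matrix.GeneralLinearGroup.scalar (Fin n) c →
      b * g = Matrix.GeneralLinearGroup.scalar (Fin n) ω * g * b →
      Dt e ((ω : F) ^ δ) (d⁻¹ • lin g ^ δ) (lin b) (lin b⁻¹) ∧
        lin b * lin g = (ω : F) • (lin g * lin b) := by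
    intro g b hg hb
    have h1 : lin b * lin g = (ω : F) • (lin g * lin b) := by
      rw [← lin_mul, hb, lin_mul, lin_mul, lin_scalar, smul_mul_assoc, one_mul, smul_mul_assoc]
    refine ⟨mkDt he hδ hωp hd0 hcd ?_ ?_ ?_ h1, h1⟩
    · rw [← lin_pow, hg, lin_scalar]
    · rw [← lin_mul, mul_inv_cancel, lin_one]
    · rw [← lin_mul, inv_mul_cancel, lin_one]
  obtain ⟨D1, hA1⟩ := hop h a hh ha
  obtain ⟨D2, hA2⟩ := hop h' a' hh' ha'
  have hcom : ∀ g : GL (Fin n) F, lin g * (d⁻¹ • lin g ^ δ) = (d⁻¹ • lin g ^ δ) * lin g := by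
    intro g
    rw [mul_smul_comm, smul_mul_assoc, ← pow_succ', ← pow_succ]
  have hrank : ∀ (g b : GL (Fin n) F)
      (D : Dt e ((ω : F) ^ δ) (d⁻¹ • lin g ^ δ) (lin b) (lin b⁻¹)),
      n = e * finrank F (Wf (d⁻¹ • lin g ^ δ)) := by
    intro g b D
    have h1 := LinearEquiv.finrank_eq (Psi D)
    have h2 : finrank F (Fin n → F) = n := Module.finrank_fin_fun F
    have h3 : finrank F (Fin e → Wf (d⁻¹ • lin g ^ δ)) = e * finrank F (Wf (d⁻¹ • lin g ^ δ)) := by
      rw [Module.finrank_pi_fintype, Finset.sum_const, Finset.card_univ, Fintype.card_fin,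
        smul_eq_mul]
    exact h2.symm.trans (h1.trans h3)
  have hfr : finrank F (Wf (d⁻¹ • lin h ^ δ)) = finrank F (Wf (d⁻¹ • lin h' ^ δ)) := by
    have h1 := hrank h a D1
    have h2 := hrank h' a' D2
    exact Nat.eq_of_mul_eq_mul_left he (h1.symm.trans h2)
  have hker : ∀ g : GL (Fin n) F, Polynomial.aeval (Hw (hcom g))
      (Polynomial.X ^ δ - Polynomial.C d : Polynomial F) = 0 := by
    intro g
    rw [map_sub, map_pow, Polynomial.aeval_X, Polynomial.aeval_C, sub_eq_zero]
    apply LinearMap.ext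
    intro w
    apply Subtype.ext
    rw [Hw_pow, Module.algebraMap_end_apply, Submodule.coe_smul]
    have h1 := mem_Wf.mp w.2
    rw [LinearMap.smul_apply] at h1
    have h2 := congrArg (fun z => d • z) h1
    simp only [smul_smul, mul_inv_cancel₀ hd0, one_smul] at h2
    exact h2
  obtain ⟨f, hf⟩ := exists_comm_equiv hirr (Hw (hcom h)) (Hw (hcom h')) (hker h) (hker h') hfr
  let T : (Fin n → F) ≃ₗ[F] (Fin n → F) :=
    (Psi D1).trans ((LinearEquiv.piCongrRight fun _ => f).trans (Psi D2).symm)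
  have hPT : ∀ v i, Psi D2 (T v) i = f (Psi D1 v i) := by
    intro v i
    have h1 : Psi D2 (T v) = (LinearEquiv.piCongrRight fun _ => f) (Psi D1 v) :=
      (Psi D2).apply_symm_apply _
    rw [h1]
    rfl
  have hT : ∀ v, T (lin h v) = lin h' (T v) := by
    intro v
    apply (Psi D2).injective
    funext i
    rw [hPT, Psi_H D1 (hcom h) hω0 hA1, Psi_H D2 (hcom h') hω0 hA2, hPT, map_smul, hf]
  obtain ⟨x, hx⟩ := exists_lin T
  refine ⟨x, ?_⟩
  rw [mul_inv_eq_iff_eq_mul]
  apply lin_injective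
  rw [lin_mul, lin_mul, hx]
  apply LinearMap.ext
  intro v
  exact hT v

end Vale.Agent.P275.H85G

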