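import Vale.Agent.P275.H633.FixD
import Vale.Agent.P275.H93.E4
import Vale.Agent.P275.H85G.E6

/-!
# Row X4: every class modulo `m`-th powers comes from exactly one generator
-/

set_option linter.style.haveILetI false
set_option linter.unusedSectionVars false

namespace Vale.Agent.P275.H85G

open scoped BigOperators MatrixGroups
open Module Matrix Vale.Agent.P275.H85 Vale.Agent.P275.H341 Vale.Agent.P275.H633

section
variable {F : Type} [Field F] [Fintype F] [DecidableEq F]

/-- the number of solutions of `u ^ m = v ^ m` -/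
theorem card_pow_eq {m : ℕ} (hm : 1 ≤ m) {ω : Fˣ} (hω : orderOf ω = m) (v : Fˣ) :
    (Finset.univ.filter fun u : Fˣ => u ^ m = v ^ m).card = m := by
  classical
  haveI : NeZero m := ⟨by omega⟩
  have h1 : (Finset.univ.filter fun u : Fˣ => u ^ m = v ^ m)
      = (Finset.range m).image (fun i => v * ω ^ i) := by
    ext u
    rw [Finset.mem_filter, Finset.mem_image]
    constructor
    · rintro ⟨_, h⟩
      have hp : IsPrimitiveRoot (ω : F) m := by
        rw [IsPrimitiveRoot.coe_units_iff, ← hω]
        exact IsPrimitiveRoot.orderOf ω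
      have h2 : (((v⁻¹ * u : Fˣ)) : F) ^ m = 1 := by
        rw [← Units.val_pow_eq_pow_val, mul_pow, h, inv_pow, inv_mul_cancel, Units.val_one]
      obtain ⟨i, hi, h3⟩ := hp.eq_pow_of_pow_eq_one h2
      refine ⟨i, Finset.mem_range.mpr hi, ?_⟩
      have h4 : ω ^ i = v⁻¹ * u := Units.ext (by rw [Units.val_pow_eq_pow_val]; exact h3)
      rw [h4, mul_inv_cancel_left]
    · rintro ⟨i, _, rfl⟩
      refine ⟨Finset.mem_univ _, ?_⟩
      rw [mul_pow, ← pow_mul, mul_comm i m, pow_mul, ← hω, pow_orderOf_eq_one, one_pow, mul_one]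
  rw [h1, Finset.card_image_of_injOn, Finset.card_range]
  intro i hi j hj h
  have h2 : ω ^ i = ω ^ j := mul_left_cancel h
  have hi' : i < orderOf ω := by rw [hω]; simpa using hi
  have hj' : j < orderOf ω := by rw [hω]; simpa using hj
  exact pow_injOn_Iio_orderOf hi' hj' h2

/-- an element killed by `(q - 1) / m` is an `m`-th power -/
theorem exists_root {m : ℕ} (hm : m ∣ Fintype.card F - 1) {x : Fˣ}
    (hx : x ^ ((Fintype.card F - 1) / m) = 1) : ∃ u : Fˣ, u ^ m = x := by
  classical
  obtain ⟨g, hg⟩ := IsCyclic.exists_generator (α := Fˣ)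
  obtain ⟨c, rfl⟩ := Subgroup.mem_zpowers_iff.mp (hg x)
  obtain ⟨e, he⟩ := hm
  have hq : 1 < Fintype.card F := Fintype.one_lt_card
  have hm0 : 0 < m := by
    rcases Nat.eq_zero_or_pos m with h | h
    · rw [h, zero_mul] at he
      omega
    · exact h
  have he0 : 0 < e := by
    rcases Nat.eq_zero_or_pos e with h | h
    · rw [h, mul_zero] at he
      omega
    · exact h
  have h5 : (Fintype.card F - 1) / m = e := by
    rw [he, Nat.mul_div_cancel_left _ hm0]
  have hgo : orderOf g = m * e := by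
    rw [← he, ← Fintype.card_units, ← Nat.card_eq_fintype_card]
    exact orderOf_eq_card_of_forall_mem_zpowers hg
  rw [h5, ← zpow_natCast, ← _root_.zpow_mul] at hx
  have h6 := orderOf_dvd_iff_zpow_eq_one.mpr hx
  rw [hgo] at h6
  have h7 : (m : ℤ) ∣ c := by
    have h8 : (m : ℤ) * e ∣ c * e := by exact_mod_cast h6
    exact Int.dvd_of_mul_dvd_mul_right (by exact_mod_cast he0.ne') h8
  obtain ⟨k, rfl⟩ := h7
  refine ⟨g ^ k, ?_⟩
  rw [← zpow_natCast, ← _root_.zpow_mul, mul_comm]

end

section
variable {F E : Type} [Field F] [Fintype F] [DecidableEq F] [Field E] [Fintype E]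
  [DecidableEq E] [Algebra F E]

theorem inc_injective : Function.Injective (inc (F := F) E) := by
  intro x y h
  have h1 := congrArg (fun u : Eˣ => (u : E)) h
  exact Units.ext ((algebraMap F E).injective h1)

/-- the Frobenius on an eigenvector -/
theorem frob_pow {φ : E ≃ₐ[F] E} {b : Eˣ} {ε : Fˣ} (hb : φ b = algebraMap F E (ε : F) * b)
    {k : ℕ} (hk : φ ^ k = FiniteField.frobeniusAlgEquivOfAlgebraic F E) :
    b ^ (Fintype.card F - 1) = inc E (ε ^ k) := by
  have hbk : ∀ k : ℕ, (φ ^ k) (b : E) = algebraMap F E (ε : F) ^ k * b := by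
    intro k
    induction k with
    | zero => simp
    | succ k ih =>
      rw [pow_succ, AlgEquiv.mul_apply, hb, map_mul, AlgEquiv.commutes, ih, pow_succ]
      ring
  have h1 := hbk k
  rw [hk] at h1
  have h2 : FiniteField.frobeniusAlgEquivOfAlgebraic F E (b : E) = (b : E) ^ Fintype.card F := rfl
  rw [h2] at h1
  apply Units.ext
  have h3 : (b : E) ^ (Fintype.card F - 1) * b = (b : E) ^ Fintype.card F := by
    rw [← pow_succ, Nat.sub_add_cancel Fintype.card_pos]
  have h4 : ((inc E (ε ^ k) : Eˣ) : E) = algebraMap F E (ε : F) ^ k := by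
    have h5 : ((inc E (ε ^ k) : Eˣ) : E) = algebraMap F E ((ε ^ k : Fˣ) : F) := rfl
    rw [h5, Units.val_pow_eq_pow_val, map_pow]
  rw [Units.val_pow_eq_pow_val, h4]
  exact mul_right_cancel₀ b.ne_zero (h3.trans h1)

/-- the count for one generator -/
theorem count_one {m : ℕ} (hm : 1 ≤ m) {ω : Fˣ} (hω : orderOf ω = m) {b : Eˣ} {t : Fˣ}
    {s : Fˣ} (hs : s ^ m = 1) (hb : b ^ (Fintype.card F - 1) = inc E s) (c : Fˣ)
    (hc : c ^ ((Fintype.card F - 1) / m) = t) :
    (Finset.univ.filter fun u : Fˣ => inc E c = (inc E u * b) ^ m).card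
      = if s = t then m else 0 := by
  classical
  have hmq : m ∣ Fintype.card F - 1 := by
    rw [← hω, ← Fintype.card_units]
    exact orderOf_dvd_card
  by_cases hex : ∃ v : Fˣ, inc E c = (inc E v * b) ^ m
  · obtain ⟨v, hv⟩ := hex
    have h1 : s = t := by
      have h2 : (inc E c) ^ ((Fintype.card F - 1) / m)
          = ((inc E v * b) ^ m) ^ ((Fintype.card F - 1) / m) := by
        rw [hv]
      rw [← map_pow, hc, ← pow_mul, Nat.mul_div_cancel' hmq, mul_pow, hb, ← map_pow, ← map_mul]
        at h2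
      have h3 : v ^ (Fintype.card F - 1) = 1 := by
        rw [← Fintype.card_units]
        exact pow_card_eq_one
      have h4 := inc_injective h2
      rw [h3, one_mul] at h4
      exact h4.symm
    rw [if_pos h1]
    have h6 : (Finset.univ.filter fun u : Fˣ => inc E c = (inc E u * b) ^ m)
        = Finset.univ.filter fun u : Fˣ => u ^ m = v ^ m := by
      ext u
      rw [Finset.mem_filter, Finset.mem_filter, hv, mul_pow, mul_pow]
      constructor
      · rintro ⟨_, h⟩
        refine ⟨Finset.mem_univ _, ?_⟩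
        have h5 := mul_right_cancel h
        rw [← map_pow, ← map_pow] at h5
        exact (inc_injective h5).symm
      · rintro ⟨_, h⟩
        refine ⟨Finset.mem_univ _, ?_⟩
        rw [← map_pow, ← map_pow, h]
    rw [h6]
    exact card_pow_eq hm hω v
  · have h0 : (Finset.univ.filter fun u : Fˣ => inc E c = (inc E u * b) ^ m).card = 0 := by
      rw [Finset.card_eq_zero, Finset.filter_eq_empty_iff]
      intro u _ hu
      exact hex ⟨u, hu⟩
    rw [h0]
    by_cases hst : s = t
    · exfalso
      apply hex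
      -- `b ^ m` comes from the small field
      have h1 : FiniteField.frobeniusAlgEquivOfAlgebraic F E ((b ^ m : Eˣ) : E)
          = ((b ^ m : Eˣ) : E) := by
        have h2 : FiniteField.frobeniusAlgEquivOfAlgebraic F E ((b ^ m : Eˣ) : E)
            = ((b ^ m : Eˣ) : E) ^ Fintype.card F := rfl
        rw [h2, ← Units.val_pow_eq_pow_val]
        congr 1
        have h3 : (b ^ m) ^ (Fintype.card F - 1) = 1 := by
          rw [← pow_mul, mul_comm, pow_mul, hb, ← map_pow, hs, map_one]
        calc (b ^ m) ^ Fintype.card F = (b ^ m) ^ (Fintype.card F - 1 + 1) := by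
              rw [Nat.sub_add_cancel Fintype.card_pos]
          _ = b ^ m := by rw [pow_succ, h3, one_mul]
      obtain ⟨d₀, hd₀⟩ := Vale.Agent.P275.H93.fixed_gen
        (FiniteField.frobeniusAlgEquivOfAlgebraic F E)
        (FiniteField.orderOf_frobeniusAlgEquivOfAlgebraic F E) h1
      have hd0 : d₀ ≠ 0 := by
        rintro rfl
        rw [map_zero] at hd₀
        exact (b ^ m).ne_zero hd₀.symm
      set d : Fˣ := Units.mk0 d₀ hd0 with hd
      have hdb : inc E d = b ^ m := Units.ext hd₀
      have h4 : (d⁻¹ * c) ^ ((Fintype.card F - 1) / m) = 1 := by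
        rw [mul_pow, hc, inv_pow]
        have h5 : d ^ ((Fintype.card F - 1) / m) = t := by
          apply inc_injective (E := E)
          rw [map_pow, hdb, ← pow_mul, Nat.mul_div_cancel' hmq, hb, hst]
        rw [h5, inv_mul_cancel]
      obtain ⟨u, hu⟩ := exists_root hmq h4
      refine ⟨u, ?_⟩
      rw [mul_pow, ← hdb, ← map_pow, hu, ← map_mul, mul_comm d⁻¹ c, inv_mul_cancel_right]
    · rw [if_neg hst]

/-- every automorphism is a power of the Frobenius -/
theorem exists_frob (φ : E ≃ₐ[F] E) :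
    ∃ k : ℕ, φ = FiniteField.frobeniusAlgEquivOfAlgebraic F E ^ k := by
  obtain ⟨k, hk⟩ := (FiniteField.bijective_frobeniusAlgEquivOfAlgebraic_pow F E).2 φ
  exact ⟨k, hk.symm⟩

/-- the Frobenius is a power of every generator -/
theorem exists_exp {φ : E ≃ₐ[F] E} (hφ : orderOf φ = finrank F E) :
    ∃ k : ℕ, φ ^ k = FiniteField.frobeniusAlgEquivOfAlgebraic F E := by
  obtain ⟨k, rfl⟩ := exists_frob φ
  have hD : 0 < finrank F E := Module.finrank_pos
  have ho := FiniteField.orderOf_frobeniusAlgEquivOfAlgebraic F E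
  have h1 : k.Coprime (orderOf (FiniteField.frobeniusAlgEquivOfAlgebraic F E)) := by
    have h2 := orderOf_pow (FiniteField.frobeniusAlgEquivOfAlgebraic F E) (n := k)
    rw [hφ, ho] at h2
    have h3 : (finrank F E).gcd k = 1 := by
      by_contra hne
      have h4 : 1 < (finrank F E).gcd k := by
        have : 0 < (finrank F E).gcd k := Nat.gcd_pos_of_pos_left _ hD
        omega
      have h5 := Nat.div_lt_self hD h4
      omega
    rw [ho, Nat.coprime_comm]
    exact h3
  exact exists_pow_eq_self_of_coprime h1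

/-- the exponent is prime to the order -/
theorem exp_coprime {φ : E ≃ₐ[F] E} (hφ : orderOf φ = finrank F E) {k : ℕ}
    (hk : φ ^ k = FiniteField.frobeniusAlgEquivOfAlgebraic F E) : Nat.Coprime (finrank F E) k := by
  have hD : 0 < finrank F E := Module.finrank_pos
  have h2 := orderOf_pow φ (n := k)
  rw [hk, FiniteField.orderOf_frobeniusAlgEquivOfAlgebraic F E, hφ] at h2
  by_contra hne
  have h4 : 1 < (finrank F E).gcd k := by
    have h5 : 0 < (finrank F E).gcd k := Nat.gcd_pos_of_pos_left _ hD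
    have h6 : (finrank F E).gcd k ≠ 1 := hne
    omega
  have h5 := Nat.div_lt_self hD h4
  omega

/-- a generator with a given exponent -/
theorem exists_gen {k : ℕ} (hk : Nat.Coprime (finrank F E) k) :
    ∃ φ : E ≃ₐ[F] E, orderOf φ = finrank F E ∧
      φ ^ k = FiniteField.frobeniusAlgEquivOfAlgebraic F E := by
  have ho := FiniteField.orderOf_frobeniusAlgEquivOfAlgebraic F E
  have h1 : k.Coprime (orderOf (FiniteField.frobeniusAlgEquivOfAlgebraic F E)) := by
    rw [ho, Nat.coprime_comm]
    exact hk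
  obtain ⟨j, hj⟩ := exists_pow_eq_self_of_coprime h1
  have h2 : (FiniteField.frobeniusAlgEquivOfAlgebraic F E ^ j) ^ k
      = FiniteField.frobeniusAlgEquivOfAlgebraic F E := by
    rw [← pow_mul, mul_comm j k, pow_mul, hj]
  refine ⟨FiniteField.frobeniusAlgEquivOfAlgebraic F E ^ j, ?_, h2⟩
  apply Nat.dvd_antisymm
  · rw [← ho]
    exact orderOf_pow_dvd j
  · conv_lhs => rw [← ho, ← h2]
    exact orderOf_pow_dvd k

/-- a generator is determined by the class of its exponent -/
theorem gen_unique {φ ψ : E ≃ₐ[F] E} (hψ : orderOf ψ = finrank F E) (hφ : orderOf φ = finrank F E)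
    {k l : ℕ} (hk : φ ^ k = FiniteField.frobeniusAlgEquivOfAlgebraic F E)
    (hl : ψ ^ l = FiniteField.frobeniusAlgEquivOfAlgebraic F E) (h : k ≡ l [MOD finrank F E]) :
    φ = ψ := by
  have h1 : ψ ^ k = FiniteField.frobeniusAlgEquivOfAlgebraic F E := by
    rw [← hl, pow_eq_pow_iff_modEq, hψ]
    exact h
  obtain ⟨a, ha⟩ := exists_frob φ
  obtain ⟨b, hb⟩ := exists_frob ψ
  have h2 : (FiniteField.frobeniusAlgEquivOfAlgebraic F E ^ a) ^ k
      = (FiniteField.frobeniusAlgEquivOfAlgebraic F E ^ b) ^ k := by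
    rw [← ha, ← hb, hk, h1]
  rw [← pow_mul, ← pow_mul, pow_eq_pow_iff_modEq,
    FiniteField.orderOf_frobeniusAlgEquivOfAlgebraic F E] at h2
  have h3 : a ≡ b [MOD finrank F E] :=
    Nat.ModEq.cancel_right_of_coprime (exp_coprime hφ hk) h2
  rw [ha, hb, pow_eq_pow_iff_modEq, FiniteField.orderOf_frobeniusAlgEquivOfAlgebraic F E]
  exact h3

end

theorem rowX4 : RowX4 := by
  classical
  intro F _ _ _ m ω E _ _ _ _ β hm hω hfr hβ c
  have hm0 : 0 < m := hm
  have hmq : m ∣ Fintype.card F - 1 := by
    rw [← hω, ← Fintype.card_units]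
    exact orderOf_dvd_card
  set t : Fˣ := c ^ ((Fintype.card F - 1) / m) with ht
  have htm : t ^ m = 1 := by
    rw [ht, ← pow_mul, Nat.div_mul_cancel hmq, ← Fintype.card_units]
    exact pow_card_eq_one
  have hδ₀ : orderOf t ∣ m := orderOf_dvd_of_pow_eq_one htm
  have hεo : ∀ δ, δ ∣ m → orderOf (ω ^ (m / δ)) = δ := by
    intro δ hδ
    obtain ⟨e, he⟩ := hδ
    have hδ0 : 0 < δ := Nat.pos_of_mul_pos_right (by rw [← he]; exact hm0)
    have he0 : 0 < e := Nat.pos_of_mul_pos_left (by rw [← he]; exact hm0)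
    rw [he, Nat.mul_div_cancel_left _ hδ0, orderOf_pow' ω he0.ne', hω, he,
      Nat.gcd_eq_right (Dvd.intro_left δ rfl), Nat.mul_div_cancel _ he0]
  have hstep : ∀ δ ∈ m.divisors, ∑ φ : E δ ≃ₐ[F] E δ, (if orderOf φ = δ then
      ((Finset.univ.filter fun u : Fˣ => inc (E δ) c = (inc (E δ) u * β δ φ) ^ m).card : ℂ) else 0)
      = if δ = orderOf t then (m : ℂ) else 0 := by
    intro δ hδ
    have hδm : δ ∣ m := Nat.dvd_of_mem_divisors hδ
    have hf := hfr δ hδ
    have hε := hεo δ hδm
    have hterm : ∀ (φ : E δ ≃ₐ[F] E δ) (k : ℕ), orderOf φ = δ →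
        φ ^ k = FiniteField.frobeniusAlgEquivOfAlgebraic F (E δ) →
        (Finset.univ.filter fun u : Fˣ => inc (E δ) c = (inc (E δ) u * β δ φ) ^ m).card
          = if (ω ^ (m / δ)) ^ k = t then m else 0 := by
      intro φ k hφ hk
      have h1 := hβ δ hδ φ hφ
      rw [← Units.val_pow_eq_pow_val] at h1
      have h2 := frob_pow h1 hk
      have h3 : ((ω ^ (m / δ)) ^ k) ^ m = 1 := by
        have h4 : ω ^ m = 1 := by rw [← hω, pow_orderOf_eq_one]
        have h5 : m / δ * (k * m) = m * (m / δ * k) := by ring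
        rw [← pow_mul, ← pow_mul, h5, pow_mul, h4, one_pow]
      exact count_one hm hω h3 h2 c rfl
    by_cases hδt : δ = orderOf t
    · rw [if_pos hδt]
      have hδ0 : 0 < δ := Nat.pos_of_dvd_of_pos hδm hm0
      haveI : NeZero δ := ⟨hδ0.ne'⟩
      have hp1 : IsPrimitiveRoot (ω ^ (m / δ)) δ := by
        have h1 := IsPrimitiveRoot.orderOf (ω ^ (m / δ))
        rw [hε] at h1
        exact h1
      have hp2 : IsPrimitiveRoot t δ := by
        have h1 := IsPrimitiveRoot.orderOf t
        rw [← hδt] at h1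
        exact h1
      obtain ⟨i, _, hic, hit⟩ := (IsPrimitiveRoot.isPrimitiveRoot_iff' hp1).mp hp2
      have hic' : Nat.Coprime (finrank F (E δ)) i := by
        rw [hf, Nat.coprime_comm]
        exact hic
      obtain ⟨ψ, hψ, hψi⟩ := exists_gen hic'
      have hψ' : orderOf ψ = δ := hψ.trans hf
      rw [Finset.sum_eq_single ψ, if_pos hψ', hterm ψ i hψ' hψi, if_pos hit]
      · intro φ _ hne
        split_ifs with hφ
        · obtain ⟨k, hk⟩ := exists_exp (hφ.trans hf.symm)
          rw [hterm φ k hφ hk, if_neg, Nat.cast_zero]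
          intro hc
          apply hne
          have h5 : (ω ^ (m / δ)) ^ k = (ω ^ (m / δ)) ^ i := hc.trans hit.symm
          rw [pow_eq_pow_iff_modEq, hε] at h5
          have h6 : k ≡ i [MOD finrank F (E δ)] := by
            rw [hf]
            exact h5
          exact gen_unique hψ (hφ.trans hf.symm) hk hψi h6
        · rfl
      · intro h
        exact absurd (Finset.mem_univ _) h
    · rw [if_neg hδt]
      apply Finset.sum_eq_zero
      intro φ _
      split_ifs with hφ
      · obtain ⟨k, hk⟩ := exists_exp (hφ.trans hf.symm)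
        rw [hterm φ k hφ hk, if_neg, Nat.cast_zero]
        intro hc
        apply hδt
        have h5 := exp_coprime (hφ.trans hf.symm) hk
        rw [hf] at h5
        rw [← hc, orderOf_pow, hε]
        have h6 : δ.gcd k = 1 := h5
        rw [h6, Nat.div_one]
      · rfl
  rw [Finset.sum_congr rfl hstep, Finset.sum_ite_eq' , if_pos]
  exact Nat.mem_divisors.mpr ⟨hδ₀, hm0.ne'⟩

end Vale.Agent.P275.H85G

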