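import Vale.Agent.P275.H341.All
import Vale.Agent.P275.H85.R2

/-!
# The lowest weights for rank four, order two, genus two
-/

namespace Vale.Agent.P275.H85G.Q

open scoped BigOperators MatrixGroups
open Module Matrix Vale.Agent.P275.H85 Vale.Agent.P275.H341

theorem ld_two (a : ℕ → ℂ) (h0 : a 0 = 1) : ld a 2 = 2 * a 2 - a 1 ^ 2 := by
  unfold ld
  set f : PowerSeries ℂ := PowerSeries.mk a with hf
  have hc : PowerSeries.constantCoeff f ≠ 0 := by
    rw [hf, ← PowerSeries.coeff_zero_eq_constantCoeff_apply, PowerSeries.coeff_mk, h0]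
    exact one_ne_zero
  have hmul : f * f⁻¹ = 1 := PowerSeries.mul_inv_cancel f hc
  have e0 : PowerSeries.coeff 0 f⁻¹ = 1 := by
    have h := congrArg (PowerSeries.coeff 0) hmul
    rw [PowerSeries.coeff_mul, Finset.Nat.antidiagonal_zero, Finset.sum_singleton,
      PowerSeries.coeff_one, if_pos rfl] at h
    simp only [hf, PowerSeries.coeff_mk, h0, one_mul] at h
    exact h
  have e1 : PowerSeries.coeff 1 f⁻¹ = - a 1 := by
    have h := congrArg (PowerSeries.coeff 1) hmul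
    rw [PowerSeries.coeff_mul, Finset.Nat.antidiagonal_succ, Finset.sum_cons,
      Finset.Nat.antidiagonal_zero, Finset.map_singleton, Finset.sum_singleton,
      PowerSeries.coeff_one] at h
    simp only [Function.Embedding.coe_prodMap, Function.Embedding.refl_apply,
      Function.Embedding.coeFn_mk, Prod.map_apply, zero_add, Nat.succ_eq_add_one,
      one_ne_zero, if_false, e0, mul_one] at h
    have h1 : PowerSeries.coeff 0 f = 1 := by rw [hf, PowerSeries.coeff_mk, h0]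
    have h2 : PowerSeries.coeff 1 f = a 1 := by rw [hf, PowerSeries.coeff_mk]
    rw [h1, h2, one_mul] at h
    linear_combination h
  rw [mul_assoc, PowerSeries.coeff_succ_X_mul, PowerSeries.coeff_mul,
    Finset.Nat.antidiagonal_succ, Finset.sum_cons, Finset.Nat.antidiagonal_zero,
    Finset.map_singleton, Finset.sum_singleton]
  simp only [Function.Embedding.coe_prodMap, Function.Embedding.refl_apply,
    Function.Embedding.coeFn_mk, Prod.map_apply, zero_add, Nat.succ_eq_add_one, e0, e1,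
    PowerSeries.coeff_derivative, mul_one]
  simp only [hf, PowerSeries.coeff_mk]
  push_cast
  ring

theorem pt0 : Pt 0 = {fun i => i.elim0} := by decide
theorem pt1 : Pt 1 = {![1]} := by decide
theorem pt2 : Pt 2 = {![2, 0], ![1, 1]} := by decide

theorem hk1 (q : ℂ) : hk q (![1] : Fin 1 → ℕ) = q - 1 := by
  simp [hk, Nat.choose]

theorem hk20 {q : ℂ} (h3 : q ^ 3 - 1 ≠ 0) : hk q (![2, 0] : Fin 2 → ℕ) = (q - 1) * (q ^ 2 - 1) := by
  have h : Finset.Ioi (0 : Fin 2) = {1} := by decide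
  have h' : Finset.Ioi (1 : Fin 2) = ∅ := by decide
  simp [hk, h, h', Finset.prod_range_succ, Nat.choose, Fin.prod_univ_two]
  field_simp

theorem hk11 {q : ℂ} (h0 : q ≠ 0) (h1 : q - 1 ≠ 0) :
    hk q (![1, 1] : Fin 2 → ℕ) = (q - 1) * (q ^ 2 - 1) / q := by
  have h : Finset.Ioi (0 : Fin 2) = {1} := by decide
  have h' : Finset.Ioi (1 : Fin 2) = ∅ := by decide
  have h2 : q ^ 2 - q ≠ 0 := by
    have : q ^ 2 - q = q * (q - 1) := by ring
    rw [this]
    exact mul_ne_zero h0 h1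
  simp [hk, h, h', Finset.prod_range_succ, Nat.choose, Fin.prod_univ_two]
  field_simp

theorem om0 (q : ℂ) (d e : ℕ) : om (powMonoidHom (2 * 2 - 2)) q d e 0 = 1 := by
  unfold om
  rw [pt0, Finset.sum_singleton]
  simp [hk, Nat.choose]

theorem om1 (q : ℂ) (d e : ℕ) :
    om (powMonoidHom (2 * 2 - 2)) q d e 1 = ((q ^ d - 1) ^ 2) ^ e := by
  unfold om
  rw [pt1, Finset.sum_singleton, hk1]
  simp

theorem om2 {q : ℂ} {d : ℕ} (e : ℕ) (h0 : q ^ d ≠ 0) (h1 : q ^ d - 1 ≠ 0)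
    (h3 : (q ^ d) ^ 3 - 1 ≠ 0) :
    om (powMonoidHom (2 * 2 - 2)) q d e 2 = (((q ^ d - 1) * ((q ^ d) ^ 2 - 1)) ^ 2) ^ e
      + (((q ^ d - 1) * ((q ^ d) ^ 2 - 1) / q ^ d) ^ 2) ^ e := by
  unfold om
  rw [pt2, Finset.sum_insert (by decide), Finset.sum_singleton, hk20 h3, hk11 h0 h1]
  simp

theorem eG_val {q : ℂ} (h0 : q ≠ 0) (h1 : ∀ n, 0 < n → q ^ n ≠ 1) :
    eG 4 2 2 q = (q - 1) ^ 2 * (-2 * q ^ 21 - 2 * q ^ 20 + 4 * q ^ 19 + 2 * q ^ 18 - 4 * q ^ 17
      - 4 * q ^ 16 + 12 * q ^ 15 - 4 * q ^ 14 - 4 * q ^ 13 + 2 * q ^ 12 + 4 * q ^ 11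
      - 2 * q ^ 10 - 2 * q ^ 9) := by
  have hd : (4 : ℕ).divisors = {1, 2, 4} := by decide
  have hmu2 : ArithmeticFunction.moebius 2 = -1 :=
    ArithmeticFunction.moebius_apply_prime Nat.prime_two
  have hmu4 : ArithmeticFunction.moebius 4 = 0 := by
    apply ArithmeticFunction.moebius_eq_zero_of_not_squarefree
    intro h
    have := h 2 (by decide)
    exact absurd (Nat.isUnit_iff.mp this) (by decide)
  have k1 : q ^ 1 - 1 ≠ 0 := sub_ne_zero.mpr (h1 1 one_pos)
  have k2 : q ^ 2 - 1 ≠ 0 := sub_ne_zero.mpr (h1 2 two_pos)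
  have k13 : (q ^ 1) ^ 3 - 1 ≠ 0 := by
    rw [← pow_mul]
    exact sub_ne_zero.mpr (h1 3 (by norm_num))
  have k23 : (q ^ 2) ^ 3 - 1 ≠ 0 := by
    rw [← pow_mul]
    exact sub_ne_zero.mpr (h1 6 (by norm_num))
  unfold eG
  rw [hd, Finset.sum_insert (by decide), Finset.sum_insert (by decide), Finset.sum_singleton,
    hmu2, hmu4, ArithmeticFunction.moebius_apply_one]
  have g1 : Nat.gcd 2 1 = 1 := by decide
  have g2 : Nat.gcd 2 2 = 2 := by decide
  have l1 : Nat.lcm 2 1 = 2 := by decide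
  have l2 : Nat.lcm 2 2 = 2 := by decide
  rw [g1, g2, l1, l2, show 2 / 1 = 2 from rfl, show 2 / 2 = 1 from rfl,
    ld_two _ (om0 q 1 2), ld_two _ (om0 q 2 1), om1, om1, om2 2 (pow_ne_zero 1 h0) k1 k13,
    om2 1 (pow_ne_zero 2 h0) k2 k23]
  push_cast
  field_simp
  ring

/-- all the Euler characteristics of the weight graded pieces -/
theorem rowQall (h : ℕ → ℕ → ℕ) (h0 : ∀ k w, h k w ≠ 0 → w ≤ 2 * k)
    (H : ∀ (F : Type) [Field F] [Fintype F] [DecidableEq F], 8 ∣ Fintype.card F - 1 →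
      ∃ (ζ : Fˣ) (κ κ' : Fin 2 → (Fˣ →* ℂˣ)), orderOf ζ = 4 ∧
        orderOf (fun i => (κ i, κ' i)) = 2 ∧
        commSum F 4 2 ζ κ κ' = ((Fintype.card F : ℂ) - 1) ^ 3 *
          (Fintype.card (GL (Fin 4) F) : ℂ) *
          ∑ k ∈ Finset.range 31, ∑ w ∈ Finset.range (2 * k + 1), (-1) ^ k * (h k w : ℂ) *
            ((Real.sqrt (Fintype.card F) : ℝ) : ℂ) ^ (60 - w)) :
    ∀ w, w ≤ 60 → ∑ k ∈ Finset.range 31, (-1 : ℤ) ^ k * h k w =
      if w = 18 then -2 else if w = 20 then -2 else if w = 22 then 4 else if w = 24 then 2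
      else if w = 26 then -4 else if w = 28 then -4 else if w = 30 then 12
      else if w = 32 then -4 else if w = 34 then -4 else if w = 36 then 2
      else if w = 38 then 4 else if w = 40 then -2 else if w = 42 then -2 else 0 := by
  classical
  let P : Polynomial ℂ := ∑ k ∈ Finset.range 31, ∑ w ∈ Finset.range (2 * k + 1),
    Polynomial.C ((-1) ^ k * (h k w : ℂ)) * Polynomial.X ^ (60 - w)
  let Q : Polynomial ℂ := Polynomial.C (-2) * Polynomial.X ^ 42
    + Polynomial.C (-2) * Polynomial.X ^ 40 + Polynomial.C 4 * Polynomial.X ^ 38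
    + Polynomial.C 2 * Polynomial.X ^ 36 + Polynomial.C (-4) * Polynomial.X ^ 34
    + Polynomial.C (-4) * Polynomial.X ^ 32 + Polynomial.C 12 * Polynomial.X ^ 30
    + Polynomial.C (-4) * Polynomial.X ^ 28 + Polynomial.C (-4) * Polynomial.X ^ 26
    + Polynomial.C 2 * Polynomial.X ^ 24 + Polynomial.C 4 * Polynomial.X ^ 22
    + Polynomial.C (-2) * Polynomial.X ^ 20 + Polynomial.C (-2) * Polynomial.X ^ 18
  have hPQ : P = Q := by
    apply poly_eq_of_primes (k := 8) (by norm_num)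
    intro p hp hp1
    have : Fact p.Prime := ⟨hp⟩
    have hcard : Fintype.card (ZMod p) = p := ZMod.card p
    have hdiv : 8 ∣ Fintype.card (ZMod p) - 1 := by
      rw [hcard]
      exact (Nat.modEq_iff_dvd' hp.one_le).mp hp1.symm
    obtain ⟨ζ, κ, κ', hζ, hκ, hc1⟩ := H (ZMod p) hdiv
    have hdiv2 : 2 * 2 ∣ Fintype.card (ZMod p) - 1 := dvd_trans (by norm_num) hdiv
    have hpow : (fun i => (κ i, κ' i)) ^ 2 = 1 := by
      have h5 := pow_orderOf_eq_one (fun i => (κ i, κ' i))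
      rw [hκ] at h5
      exact h5
    have hneg : ∀ i, κ i (-1) = 1 ∧ κ' i (-1) = 1 := by
      intro i
      have h1 := congrFun hpow i
      have h2 : (κ i) ^ 2 = 1 := congrArg Prod.fst h1
      have h3 : (κ' i) ^ 2 = 1 := congrArg Prod.snd h1
      exact ⟨neg_one_of_pow hdiv2 _ h2, neg_one_of_pow hdiv2 _ h3⟩
    have hall := count_all (by norm_num : 1 ≤ 4) (by norm_num : 2 ∣ 4) (by norm_num : 1 ≤ 2)
      ζ hζ κ κ' hκ hneg
    rw [hc1] at hall
    have hq1 : ((Fintype.card (ZMod p) : ℂ) - 1) ≠ 0 := by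
      rw [hcard, sub_ne_zero]
      exact_mod_cast hp.one_lt.ne'
    have hG : (Fintype.card (GL (Fin 4) (ZMod p)) : ℂ) ≠ 0 := by
      exact_mod_cast Fintype.card_ne_zero
    have hqn : ∀ n, 0 < n → ((Fintype.card (ZMod p) : ℕ) : ℂ) ^ n ≠ 1 := by
      intro n hn
      rw [hcard]
      have h1 : 1 < p ^ n := Nat.one_lt_pow hn.ne' hp.one_lt
      exact_mod_cast h1.ne'
    have hq0 : ((Fintype.card (ZMod p) : ℕ) : ℂ) ≠ 0 := by
      rw [hcard]
      exact_mod_cast hp.ne_zero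
    rw [eG_val hq0 hqn] at hall
    have hall2 : ∑ k ∈ Finset.range 31, ∑ w ∈ Finset.range (2 * k + 1),
              (-1) ^ k * (h k w : ℂ) *
                ((Real.sqrt (Fintype.card (ZMod p)) : ℝ) : ℂ) ^ (60 - w)
        = -2 * (Fintype.card (ZMod p) : ℂ) ^ 21 - 2 * (Fintype.card (ZMod p) : ℂ) ^ 20
          + 4 * (Fintype.card (ZMod p) : ℂ) ^ 19 + 2 * (Fintype.card (ZMod p) : ℂ) ^ 18
          - 4 * (Fintype.card (ZMod p) : ℂ) ^ 17
          - 4 * (Fintype.card (ZMod p) : ℂ) ^ 16 + 12 * (Fintype.card (ZMod p) : ℂ) ^ 15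
          - 4 * (Fintype.card (ZMod p) : ℂ) ^ 14 - 4 * (Fintype.card (ZMod p) : ℂ) ^ 13
          + 2 * (Fintype.card (ZMod p) : ℂ) ^ 12 + 4 * (Fintype.card (ZMod p) : ℂ) ^ 11
          - 2 * (Fintype.card (ZMod p) : ℂ) ^ 10 - 2 * (Fintype.card (ZMod p) : ℂ) ^ 9 := by
      apply mul_left_cancel₀ (mul_ne_zero (pow_ne_zero 3 hq1) hG)
      linear_combination hall
    rw [hcard] at hall2
    have hsq : (p : ℂ) = ((Real.sqrt p : ℝ) : ℂ) ^ 2 := by
      rw [← Complex.ofReal_pow, Real.sq_sqrt (Nat.cast_nonneg p)]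
      simp
    show P.eval _ = Q.eval _
    have e1 : P.eval ((Real.sqrt p : ℝ) : ℂ)
        = ∑ k ∈ Finset.range 31, ∑ w ∈ Finset.range (2 * k + 1),
              (-1) ^ k * (h k w : ℂ) * ((Real.sqrt p : ℝ) : ℂ) ^ (60 - w) := by
      simp only [P, Polynomial.eval_finsetSum, Polynomial.eval_mul, Polynomial.eval_C,
        Polynomial.eval_pow, Polynomial.eval_X]
    rw [e1, hall2, hsq]
    simp only [Q, Polynomial.eval_add, Polynomial.eval_mul, Polynomial.eval_C,
      Polynomial.eval_pow, Polynomial.eval_X]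
    ring
  intro w hw
  have hPcoef : P.coeff (60 - w)
      = ∑ k ∈ Finset.range 31, (-1 : ℂ) ^ k * h k w := by
    simp only [P, Polynomial.finsetSum_coeff, Polynomial.coeff_C_mul_X_pow]
    apply Finset.sum_congr rfl
    intro k hk
    rw [Finset.mem_range] at hk
    have h1 : ∀ w' ∈ Finset.range (2 * k + 1),
        (if 60 - w = 60 - w' then (-1 : ℂ) ^ k * (h k w' : ℂ) else 0)
        = if w' = w then (-1 : ℂ) ^ k * (h k w : ℂ) else 0 := by
      intro w' hw'
      rw [Finset.mem_range] at hw'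
      by_cases h : w' = w
      · rw [if_pos (by rw [h]), if_pos h, h]
      · rw [if_neg (by omega), if_neg h]
    rw [Finset.sum_congr rfl h1, Finset.sum_ite_eq']
    split_ifs with h2
    · rfl
    · have h3 : h k w = 0 := by
        by_contra h4
        have := h0 k w h4
        rw [Finset.mem_range] at h2
        omega
      rw [h3, Nat.cast_zero, mul_zero]
  rw [hPQ] at hPcoef
  have hc : ((∑ k ∈ Finset.range 31, (-1 : ℤ) ^ k * h k w : ℤ) : ℂ) = Q.coeff (60 - w) := by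
    rw [hPcoef]
    push_cast
    rfl
  have hc2 : Q.coeff (60 - w) = (((
      if w = 18 then -2 else if w = 20 then -2 else if w = 22 then 4 else if w = 24 then 2
      else if w = 26 then -4 else if w = 28 then -4 else if w = 30 then 12
      else if w = 32 then -4 else if w = 34 then -4 else if w = 36 then 2
      else if w = 38 then 4 else if w = 40 then -2 else if w = 42 then -2 else 0 : ℤ)) : ℂ) := by
    simp only [Q, Polynomial.coeff_add, Polynomial.coeff_C_mul_X_pow]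
    interval_cases w <;> norm_num
  rw [hc2] at hc
  exact_mod_cast hc

/-- Row Q22 -/
theorem rowQ22 (h : ℕ → ℕ → ℕ) (h0 : ∀ k w, h k w ≠ 0 → k ≤ w ∧ w ≤ 2 * k)
    (_h1 : ∀ k w, k ≤ 16 → h k w = 0)
    (H : ∀ (F : Type) [Field F] [Fintype F] [DecidableEq F], 8 ∣ Fintype.card F - 1 →
      ∃ (ζ : Fˣ) (κ κ' : Fin 2 → (Fˣ →* ℂˣ)), orderOf ζ = 4 ∧
        orderOf (fun i => (κ i, κ' i)) = 2 ∧
        commSum F 4 2 ζ κ κ' = ((Fintype.card F : ℂ) - 1) ^ 3 *
          (Fintype.card (GL (Fin 4) F) : ℂ) *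
          ∑ k ∈ Finset.range 31, ∑ w ∈ Finset.range (2 * k + 1), (-1) ^ k * (h k w : ℂ) *
            ((Real.sqrt (Fintype.card F) : ℝ) : ℂ) ^ (60 - w)) :
    ∑ k ∈ Finset.range 31, (-1 : ℤ) ^ k * h k 18 = -2 ∧
      ∑ k ∈ Finset.range 31, (-1 : ℤ) ^ k * h k 20 = -2 := by
  have h2 := rowQall h (fun k w hk => (h0 k w hk).2) H
  exact ⟨by simpa using h2 18 (by norm_num), by simpa using h2 20 (by norm_num)⟩

end Vale.Agent.P275.H85G.Q
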