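import Vale.Agent.P275.H341.Four

/-!
# A rigidity criterion for the agreement of two filtrations
-/

set_option linter.unusedSectionVars false

namespace Vale.Agent.P275.H85G

open scoped BigOperators
open Module

/-- the data: in every degree `k` a space `V k` with a decomposition `J k` (weights) and an
increasing filtration `P k` (levels), and operators `a s` of degree `d s` and level `j s` -/
structure Tau (V : ℕ → Type) [∀ k, AddCommGroup (V k)] [∀ k, Module ℂ (V k)] where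
  J : ∀ k, ℕ → Submodule ℂ (V k)
  P : ∀ k, ℕ → Submodule ℂ (V k)
  S : Type
  d : S → ℕ
  j : S → ℕ
  a : ∀ (s : S) (k : ℕ), V k →ₗ[ℂ] V (k + d s)
  int : ∀ k, DirectSum.IsInternal (J k)
  mono : ∀ k, Monotone (P k)
  top : ∃ r, ∀ k, P k r = ⊤
  aJ : ∀ s k w, (J k w).map (a s k) ≤ J (k + d s) (w + 2 * j s)
  aP : ∀ s k i, (P k i).map (a s k) ≤ P (k + d s) (i + j s)

namespace Tau

variable {V : ℕ → Type} [∀ k, AddCommGroup (V k)] [∀ k, Module ℂ (V k)]

/-- the step of the filtration before the `i`-th one -/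
def low (X : Tau V) (k : ℕ) : ℕ → Submodule ℂ (V k)
  | 0 => ⊥
  | i + 1 => X.P k i

/-- every endomorphism of the graded module, linear over the operators, of degree `0` and level
`s`, which vanishes in the degree `k₀`, is zero (`0 < s`) or nilpotent (`s = 0`) -/
def Rigid (X : Tau V) (k₀ : ℕ) : Prop :=
  ∀ (s : ℕ) (f : ∀ k, ℕ → (V k →ₗ[ℂ] V k)),
    (∀ k i, (X.P k i).map (f k i) ≤ X.P k (i + s)) →
    (∀ k i, (X.low k i).map (f k i) ≤ X.low k (i + s)) →
    (∀ t k i, ∀ x ∈ X.P k i,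
      f (k + X.d t) (i + X.j t) (X.a t k x) - X.a t k (f k i x)
        ∈ X.low (k + X.d t) (i + X.j t + s)) →
    (∀ i, ∀ x ∈ X.P k₀ i, f k₀ i x ∈ X.low k₀ (i + s)) →
    (0 < s → ∀ k i, ∀ x ∈ X.P k i, f k i x ∈ X.low k (i + s)) ∧
    (s = 0 → ∀ k i, ∃ m, ∀ x ∈ X.P k i, ((f k i) ^ m) x ∈ X.low k i)

variable (X : Tau V)

theorem low_le (k i : ℕ) : X.low k i ≤ X.P k i := by
  cases i with
  | zero => exact bot_le
  | succ i => exact X.mono k (Nat.le_succ i)

theorem le_low {k i i' : ℕ} (h : i < i') : X.P k i ≤ X.low k i' := by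
  cases i' with
  | zero => omega
  | succ i' => exact X.mono k (by omega)

theorem low_mono (k : ℕ) {i i' : ℕ} (h : i ≤ i') : X.low k i ≤ X.low k i' := by
  rcases h.lt_or_eq with h1 | rfl
  · exact (X.low_le k i).trans (X.le_low h1)
  · exact le_rfl

theorem bij (k : ℕ) : Function.Bijective (DirectSum.coeLinearMap (X.J k)) := X.int k

/-- the weight operator -/
noncomputable def E (k : ℕ) : V k →ₗ[ℂ] V k :=
  (DirectSum.toModule ℂ ℕ (V k) (fun w => (w : ℂ) • (X.J k w).subtype)) ∘ₗ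
    (LinearEquiv.ofBijective (DirectSum.coeLinearMap (X.J k)) (X.bij k)).symm.toLinearMap

theorem E_apply {k w : ℕ} {x : V k} (hx : x ∈ X.J k w) : X.E k x = (w : ℂ) • x := by
  have h : (LinearEquiv.ofBijective (DirectSum.coeLinearMap (X.J k)) (X.bij k)).symm x
      = DirectSum.lof ℂ ℕ (fun w => X.J k w) w ⟨x, hx⟩ := by
    rw [LinearEquiv.symm_apply_eq, LinearEquiv.ofBijective_apply,
      DirectSum.coeLinearMap_lof]
  unfold E
  rw [LinearMap.comp_apply]
  show (DirectSum.toModule ℂ ℕ (V k) _) _ = _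
  rw [LinearEquiv.coe_coe, h, DirectSum.toModule_lof]
  rfl

theorem ind {k : ℕ} {p : V k → Prop} (h0 : p 0) (ha : ∀ x y, p x → p y → p (x + y))
    (hJ : ∀ w, ∀ x ∈ X.J k w, p x) (x : V k) : p x := by
  have hx : x ∈ ⨆ w, X.J k w := by
    rw [(X.int k).submodule_iSup_eq_top]
    exact Submodule.mem_top
  exact Submodule.iSup_induction (X.J k) (motive := p) hx hJ h0 ha

theorem comm (s : X.S) (k : ℕ) (x : V k) :
    X.E (k + X.d s) (X.a s k x) = X.a s k (X.E k x) + (2 * X.j s : ℂ) • X.a s k x := by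
  refine X.ind (p := fun x => X.E (k + X.d s) (X.a s k x) = X.a s k (X.E k x)
    + (2 * X.j s : ℂ) • X.a s k x) ?_ ?_ ?_ x
  · simp
  · intro x y hx hy
    simp only [map_add, hx, hy, smul_add]
    abel
  · intro w x hx
    have h1 : X.a s k x ∈ X.J (k + X.d s) (w + 2 * X.j s) := X.aJ s k w ⟨x, hx, rfl⟩
    rw [X.E_apply hx, X.E_apply h1, map_smul, ← add_smul]
    push_cast
    rfl

/-- the weight operator preserves the filtration -/
theorem pres {k₀ i₀ : ℕ} (hR : X.Rigid k₀) (h3 : X.J k₀ (2 * i₀) = ⊤) :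
    ∀ k i, (X.P k i).map (X.E k) ≤ X.P k i := by
  obtain ⟨r, hr⟩ := X.top
  have key : ∀ s : ℕ, (∀ k i, (X.P k i).map (X.E k) ≤ X.P k (i + s)) →
      ∀ k i, (X.P k i).map (X.E k) ≤ X.P k i := by
    intro s
    induction s with
    | zero => intro h; exact h
    | succ s ih =>
      intro h
      apply ih
      have h1 := (hR (s + 1) (fun k _ => X.E k) h ?_ ?_ ?_).1 (Nat.succ_pos s)
      · intro k i
        rintro _ ⟨x, hx, rfl⟩
        exact h1 k i x hx
      · intro k i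
        cases i with
        | zero =>
          show (⊥ : Submodule ℂ (V k)).map _ ≤ _
          rw [Submodule.map_bot]
          exact bot_le
        | succ i =>
          refine (h k i).trans ?_
          show _ ≤ X.low k (i + 1 + (s + 1))
          exact X.le_low (by omega)
      · intro t k i x hx
        rw [X.comm t k x, add_sub_cancel_left]
        apply Submodule.smul_mem
        exact X.le_low (by omega) (X.aP t k i ⟨x, hx, rfl⟩)
      · intro i x hx
        have h2 : x ∈ X.J k₀ (2 * i₀) := by rw [h3]; exact Submodule.mem_top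
        show X.E k₀ x ∈ _
        rw [X.E_apply h2]
        exact Submodule.smul_mem _ _ (X.le_low (by omega) hx)
  apply key r
  intro k i
  have h4 : X.P k (i + r) = ⊤ := by
    rw [← top_le_iff, ← hr k]
    exact X.mono k (by omega)
  rw [h4]
  exact le_top

/-- the weight minus twice the level -/
noncomputable def dl (k i : ℕ) : V k →ₗ[ℂ] V k := X.E k - (2 * (i : ℂ)) • LinearMap.id

theorem dl_apply (k i : ℕ) (x : V k) : X.dl k i x = X.E k x - (2 * (i : ℂ)) • x := rfl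

theorem dl_pow {k w : ℕ} (i : ℕ) {x : V k} (hx : x ∈ X.J k w) (m : ℕ) :
    ((X.dl k i) ^ m) x = ((w : ℂ) - 2 * i) ^ m • x := by
  induction m with
  | zero => simp
  | succ m ih =>
    rw [pow_succ, Module.End.mul_apply, X.dl_apply, X.E_apply hx, ← sub_smul, map_smul, ih,
      smul_smul]
    congr 1
    ring

/-- on the graded pieces the weight is twice the level, up to nilpotent operators -/
theorem nilp {k₀ i₀ : ℕ} (hR : X.Rigid k₀) (h1 : X.P k₀ i₀ = ⊤) (h2 : X.low k₀ i₀ = ⊥)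
    (h3 : X.J k₀ (2 * i₀) = ⊤) (k i : ℕ) :
    ∃ m, ∀ x ∈ X.P k i, ((X.dl k i) ^ m) x ∈ X.low k i := by
  have hp := X.pres hR h3
  have hl : ∀ k i, (X.low k i).map (X.E k) ≤ X.low k i := by
    intro k i
    cases i with
    | zero =>
      show (⊥ : Submodule ℂ (V k)).map _ ≤ _
      rw [Submodule.map_bot]
      exact bot_le
    | succ i => exact hp k i
  refine (hR 0 (fun k i => X.dl k i) ?_ ?_ ?_ ?_).2 rfl k i
  · intro k i
    rintro _ ⟨x, hx, rfl⟩
    exact Submodule.sub_mem _ (hp k i ⟨x, hx, rfl⟩) (Submodule.smul_mem _ _ hx)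
  · intro k i
    rintro _ ⟨x, hx, rfl⟩
    exact Submodule.sub_mem _ (hl k i ⟨x, hx, rfl⟩) (Submodule.smul_mem _ _ hx)
  · intro t k i x hx
    have h4 : X.dl (k + X.d t) (i + X.j t) (X.a t k x) - X.a t k (X.dl k i x) = 0 := by
      rw [X.dl_apply, X.dl_apply, X.comm t k x, map_sub, map_smul]
      push_cast
      module
    show X.dl (k + X.d t) (i + X.j t) (X.a t k x) - X.a t k (X.dl k i x) ∈ _
    rw [h4]
    exact Submodule.zero_mem _
  · intro i x hx
    have h5 : x ∈ X.J k₀ (2 * i₀) := by rw [h3]; exact Submodule.mem_top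
    have h6 : X.dl k₀ i x = ((2 * i₀ : ℂ) - 2 * i) • x := by
      rw [X.dl_apply, X.E_apply h5, sub_smul]
      push_cast
      rfl
    show X.dl k₀ i x ∈ X.low k₀ (i + 0)
    rw [h6]
    rcases lt_trichotomy i i₀ with h7 | h7 | h7
    · have h8 : x ∈ X.low k₀ i₀ := X.le_low h7 hx
      rw [h2, Submodule.mem_bot] at h8
      rw [h8, smul_zero]
      exact Submodule.zero_mem _
    · rw [h7, sub_self, zero_smul]
      exact Submodule.zero_mem _
    · apply Submodule.smul_mem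
      apply X.le_low (show i₀ < i + 0 by omega)
      rw [h1]
      exact Submodule.mem_top

/-- a vector of exact weight lies in the expected step of the filtration -/
theorem desc {k₀ i₀ : ℕ} (hR : X.Rigid k₀) (h1 : X.P k₀ i₀ = ⊤) (h2 : X.low k₀ i₀ = ⊥)
    (h3 : X.J k₀ (2 * i₀) = ⊤) {k w : ℕ} {x : V k} (hx : x ∈ X.J k w) (h0 : x ≠ 0) :
    ∀ i, x ∈ X.P k i → ∃ i', i' ≤ i ∧ w = 2 * i' ∧ x ∈ X.P k i' := by
  intro i
  induction i with
  | zero =>
    intro hi
    by_cases hw : w = 0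
    · exact ⟨0, le_rfl, by omega, hi⟩
    · exfalso
      obtain ⟨m, hm⟩ := X.nilp hR h1 h2 h3 k 0
      have h4 := hm x hi
      rw [X.dl_pow 0 hx m] at h4
      have h5 : ((w : ℂ) - 2 * (0 : ℕ)) ^ m ≠ 0 := by
        apply pow_ne_zero
        simpa using hw
      have h6 : x ∈ X.low k 0 := ((Submodule.smul_mem_iff _ h5).mp h4)
      exact h0 ((Submodule.mem_bot ℂ).mp h6)
  | succ i ih =>
    intro hi
    by_cases hw : w = 2 * (i + 1)
    · exact ⟨i + 1, le_rfl, hw, hi⟩
    · obtain ⟨m, hm⟩ := X.nilp hR h1 h2 h3 k (i + 1)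
      have h4 := hm x hi
      rw [X.dl_pow (i + 1) hx m] at h4
      have h5 : ((w : ℂ) - 2 * ((i + 1 : ℕ) : ℂ)) ^ m ≠ 0 := by
        apply pow_ne_zero
        rw [sub_ne_zero]
        exact_mod_cast hw
      have h6 : x ∈ X.P k i := ((Submodule.smul_mem_iff _ h5).mp h4)
      obtain ⟨i', h7, h8, h9⟩ := ih h6
      exact ⟨i', by omega, h8, h9⟩

theorem J_le {k₀ i₀ : ℕ} (hR : X.Rigid k₀) (h1 : X.P k₀ i₀ = ⊤) (h2 : X.low k₀ i₀ = ⊥)
    (h3 : X.J k₀ (2 * i₀) = ⊤) (k i : ℕ) : X.J k (2 * i) ≤ X.P k i := by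
  intro x hx
  by_cases h0 : x = 0
  · rw [h0]
    exact Submodule.zero_mem _
  · obtain ⟨r, hr⟩ := X.top
    obtain ⟨i', _, h5, h6⟩ := X.desc hR h1 h2 h3 hx h0 r (by rw [hr k]; exact Submodule.mem_top)
    have h7 : i = i' := by omega
    rw [h7]
    exact h6

theorem J_odd {k₀ i₀ : ℕ} (hR : X.Rigid k₀) (h1 : X.P k₀ i₀ = ⊤) (h2 : X.low k₀ i₀ = ⊥)
    (h3 : X.J k₀ (2 * i₀) = ⊤) (k w : ℕ) (hw : Odd w) : X.J k w = ⊥ := by
  rw [eq_bot_iff]
  intro x hx
  by_contra h0
  rw [Submodule.mem_bot] at h0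
  obtain ⟨r, hr⟩ := X.top
  obtain ⟨i', _, h5, _⟩ := X.desc hR h1 h2 h3 hx h0 r (by rw [hr k]; exact Submodule.mem_top)
  obtain ⟨c, hc⟩ := hw
  omega

/-- the components of a vector of the filtration lie in the filtration -/
theorem P_le [∀ k, FiniteDimensional ℂ (V k)] {k₀ i₀ : ℕ} (hR : X.Rigid k₀)
    (h1 : X.P k₀ i₀ = ⊤) (h2 : X.low k₀ i₀ = ⊥) (h3 : X.J k₀ (2 * i₀) = ⊤) (k i : ℕ) :
    X.P k i ≤ ⨆ (w) (_ : w ≤ 2 * i), X.J k w := by
  classical
  have hp := X.pres hR h3 k i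
  -- the eigenspaces of the weight operator
  let N : ℂ → Submodule ℂ (V k) := fun μ => ⨆ (w : ℕ) (_ : (w : ℂ) = μ), X.J k w
  have hN1 : ∀ μ, N μ ≤ Module.End.eigenspace (X.E k) μ := by
    intro μ
    apply iSup₂_le
    intro w hw x hx
    rw [Module.End.mem_eigenspace_iff, X.E_apply hx, hw]
  have hN2 : (⨆ μ, Module.End.eigenspace (X.E k) μ) ≤ ⨆ μ, N μ := by
    have h4 : (⨆ w, X.J k w) ≤ ⨆ μ, N μ := by
      apply iSup_le
      intro w
      exact le_iSup_of_le (w : ℂ) (le_iSup₂_of_le w rfl le_rfl)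
    rw [(X.int k).submodule_iSup_eq_top] at h4
    exact le_top.trans h4
  have hN3 := H341.indep_le (Module.End.eigenspaces_iSupIndep (X.E k)) hN1 hN2
  have htop : (⨆ μ, Module.End.eigenspace (X.E k) μ) = ⊤ := by
    rw [← top_le_iff, ← (X.int k).submodule_iSup_eq_top]
    apply iSup_le
    intro w
    refine le_iSup_of_le (w : ℂ) ?_
    exact (le_iSup₂_of_le (f := fun (w' : ℕ) (_ : (w' : ℂ) = (w : ℂ)) => X.J k w') w rfl
      le_rfl).trans (hN1 (w : ℂ))
  have hinf := Submodule.inf_iSup_genEigenspace (p := X.P k i) (f := X.E k)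
    (fun x hx => hp ⟨x, hx, rfl⟩) 1
  have h5 : X.P k i ≤ ⨆ μ, X.P k i ⊓ Module.End.eigenspace (X.E k) μ := by
    have h6 : X.P k i ⊓ ⨆ μ, Module.End.eigenspace (X.E k) μ = ⨆ μ, X.P k i ⊓ Module.End.eigenspace (X.E k) μ := hinf
    rw [htop, inf_top_eq] at h6
    exact h6.le
  refine h5.trans (iSup_le fun μ => ?_)
  intro x hx
  by_cases h0 : x = 0
  · rw [h0]
    exact Submodule.zero_mem _
  · have h7 : x ∈ N μ := hN3 μ hx.2
    by_cases hμ : ∃ w : ℕ, (w : ℂ) = μ
    · obtain ⟨w, hw⟩ := hμ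
      have h8 : N μ ≤ X.J k w := by
        apply iSup₂_le
        intro w' hw'
        have h9 : w' = w := by
          rw [← hw] at hw'
          exact_mod_cast hw'
        rw [h9]
      obtain ⟨i', h10, h11, _⟩ := X.desc hR h1 h2 h3 (h8 h7) h0 i hx.1
      exact (le_iSup₂_of_le (f := fun (w : ℕ) (_ : w ≤ 2 * i) => X.J k w) w (by omega)
        le_rfl : X.J k w ≤ _) (h8 h7)
    · exfalso
      have h8 : N μ = ⊥ := by
        rw [eq_bot_iff]
        apply iSup₂_le
        intro w hw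
        exact absurd ⟨w, hw⟩ hμ
      rw [h8, Submodule.mem_bot] at h7
      exact h0 h7

/-- **The rigidity criterion**: if the graded module is rigid and the lowest degree has one level
`i₀` and the exact weight `2 * i₀`, then the two filtrations agree in every degree. -/
theorem agree [∀ k, FiniteDimensional ℂ (V k)] {k₀ i₀ : ℕ} (hR : X.Rigid k₀)
    (h1 : X.P k₀ i₀ = ⊤) (h2 : X.low k₀ i₀ = ⊥) (h3 : X.J k₀ (2 * i₀) = ⊤) (k i : ℕ) :
    X.P k i = (⨆ (w) (_ : w ≤ 2 * i), X.J k w) ∧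
      X.P k i = ⨆ (w) (_ : w ≤ 2 * i + 1), X.J k w := by
  have e1 : X.P k i = ⨆ (w) (_ : w ≤ 2 * i), X.J k w := by
    apply le_antisymm (X.P_le hR h1 h2 h3 k i)
    apply iSup₂_le
    intro w hw
    rcases Nat.even_or_odd w with h4 | h4
    · obtain ⟨c, hc⟩ := h4
      have h5 := X.J_le hR h1 h2 h3 k c
      rw [show 2 * c = w by omega] at h5
      exact h5.trans (X.mono k (by omega))
    · rw [X.J_odd hR h1 h2 h3 k w h4]
      exact bot_le
  refine ⟨e1, ?_⟩
  rw [e1]
  apply le_antisymm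
  · apply iSup₂_le
    intro w hw
    exact le_iSup₂_of_le (f := fun (w : ℕ) (_ : w ≤ 2 * i + 1) => X.J k w) w (by omega) le_rfl
  · apply iSup₂_le
    intro w hw
    by_cases h : w = 2 * i + 1
    · rw [h, X.J_odd hR h1 h2 h3 k (2 * i + 1) ⟨i, rfl⟩]
      exact bot_le
    · exact le_iSup₂_of_le (f := fun (w : ℕ) (_ : w ≤ 2 * i) => X.J k w) w (by omega) le_rfl

end Tau

end Vale.Agent.P275.H85G
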