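import Vale.Agent.P275.H85G.Rig
import Vale.Agent.P275.H341.All
import Vale.Agent.P275.H452.TopG

/-!
# The rigidity criterion and the point counts, for all ranks, genera and characters
-/

set_option linter.unusedSectionVars false

namespace Vale.Agent.P275.H85G

open scoped BigOperators MatrixGroups
open Module Vale.Agent.P275.H85 Vale.Agent.P275.H341

theorem fr_sum {W : Type} [AddCommGroup W] [Module ℂ W] [FiniteDimensional ℂ W]
    (J : ℕ → Submodule ℂ W) (h : iSupIndep J) (N : ℕ) :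
    finrank ℂ (⨆ (w) (_ : w < N), J w : Submodule ℂ W)
      = ∑ w ∈ Finset.range N, finrank ℂ (J w) := by
  induction N with
  | zero =>
    have h1 : (⨆ (w) (_ : w < 0), J w : Submodule ℂ W) = ⊥ := by
      rw [eq_bot_iff]
      exact iSup₂_le fun w hw => absurd hw (Nat.not_lt_zero w)
    rw [h1, finrank_bot, Finset.sum_range_zero]
  | succ N ih =>
    have h1 : (⨆ (w) (_ : w < N + 1), J w : Submodule ℂ W)
        = (⨆ (w) (_ : w < N), J w) ⊔ J N := by
      apply le_antisymm
      · apply iSup₂_le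
        intro w hw
        by_cases h2 : w = N
        · rw [h2]
          exact le_sup_right
        · exact le_sup_of_le_left (le_iSup₂_of_le (f := fun (w : ℕ) (_ : w < N) => J w) w
            (by omega) le_rfl)
      · apply sup_le
        · apply iSup₂_le
          intro w hw
          exact le_iSup₂_of_le (f := fun (w : ℕ) (_ : w < N + 1) => J w) w (by omega) le_rfl
        · exact le_iSup₂_of_le (f := fun (w : ℕ) (_ : w < N + 1) => J w) N (by omega) le_rfl
    have h3 : Disjoint (⨆ (w) (_ : w < N), J w) (J N) := by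
      refine (h N).symm.mono_left ?_
      apply iSup₂_le
      intro w hw
      exact le_iSup₂_of_le (f := fun (w : ℕ) (_ : w ≠ N) => J w) w (by omega) le_rfl
    have h4 := Submodule.finrank_sup_add_finrank_inf_eq (⨆ (w) (_ : w < N), J w) (J N)
    rw [h3.eq_bot, finrank_bot, add_zero] at h4
    rw [h1, h4, ih, Finset.sum_range_succ]

/-- **The agreement of the two filtrations from the rigidity of the graded module**: all ranks
`n`, all orders `m ≥ 2` dividing `n`, all genera `g ≥ 2`. -/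
theorem agree_all {V : ℕ → Type} [∀ k, AddCommGroup (V k)] [∀ k, Module ℂ (V k)]
    [∀ k, FiniteDimensional ℂ (V k)] (X : Tau V) {n m g : ℕ} (hn : 1 ≤ n) (hm : m ∣ n)
    (h2m : 2 ≤ m) (h2g : 2 ≤ g) {D R : ℕ} (hD : D = n * (n - n / m) * (g - 1))
    (hR : R = (n ^ 2 - 1) * (g - 1))
    (hb : ∀ k w, X.J k w ≠ ⊥ → k ≤ w ∧ w ≤ 2 * k)
    (hl : ∀ k ≤ 2 * D, Subsingleton (V k))
    (hd : finrank ℂ (V (2 * D + 1)) = 2 * g - 2)
    (hP1 : X.P (2 * D + 1) (D + 1) = ⊤) (hP0 : X.P (2 * D + 1) D = ⊥)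
    (hrig : X.Rigid (2 * D + 1))
    (hc : ∀ (F : Type) [Field F] [Fintype F] [DecidableEq F], 2 * n ∣ Fintype.card F - 1 →
      ∃ (ζ : Fˣ) (κ κ' : Fin g → (Fˣ →* ℂˣ)), orderOf ζ = n ∧
        orderOf (fun i => (κ i, κ' i)) = m ∧
        commSum F n g ζ κ κ'
          = ((Fintype.card F : ℂ) - 1) ^ (2 * g - 1) * (Fintype.card (GL (Fin n) F) : ℂ) *
            ∑ k ∈ Finset.range (2 * R + 1), ∑ w ∈ Finset.range (2 * k + 1),
              (-1) ^ k * (finrank ℂ (X.J k w) : ℂ) *
                ((Real.sqrt (Fintype.card F) : ℝ) : ℂ) ^ (4 * R - w)) (k i : ℕ) :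
    X.P k i = (⨆ (w) (_ : w ≤ 2 * i), X.J k w) ∧
      X.P k i = ⨆ (w) (_ : w ≤ 2 * i + 1), X.J k w := by
  subst hD hR
  have H0 : ∀ k w, finrank ℂ (X.J k w) ≠ 0 → k ≤ w ∧ w ≤ 2 * k := by
    intro k w h
    apply hb
    intro h1
    rw [h1, finrank_bot] at h
    exact h rfl
  have H1 : ∀ k w, k ≤ 2 * (n * (n - n / m) * (g - 1)) → finrank ℂ (X.J k w) = 0 := by
    intro k w hk
    have := hl k hk
    exact finrank_zero_of_subsingleton
  have hind := (X.int (2 * (n * (n - n / m) * (g - 1)) + 1)).submodule_iSupIndep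
  have H2 : ∑ w ∈ Finset.range (2 * (2 * (n * (n - n / m) * (g - 1)) + 1) + 1),
      finrank ℂ (X.J (2 * (n * (n - n / m) * (g - 1)) + 1) w) = 2 * g - 2 := by
    rw [← fr_sum _ hind, ← hd]
    have h1 : (⨆ (w) (_ : w < 2 * (2 * (n * (n - n / m) * (g - 1)) + 1) + 1),
        X.J (2 * (n * (n - n / m) * (g - 1)) + 1) w : Submodule ℂ _) = ⊤ := by
      rw [← top_le_iff,
        ← (X.int (2 * (n * (n - n / m) * (g - 1)) + 1)).submodule_iSup_eq_top]
      apply iSup_le
      intro w
      by_cases hw : X.J (2 * (n * (n - n / m) * (g - 1)) + 1) w = ⊥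
      · rw [hw]
        exact bot_le
      · have := hb _ w hw
        exact le_iSup₂_of_le (f := fun (w : ℕ)
          (_ : w < 2 * (2 * (n * (n - n / m) * (g - 1)) + 1) + 1) =>
            X.J (2 * (n * (n - n / m) * (g - 1)) + 1) w) w (by omega) le_rfl
    rw [h1, finrank_top]
  have hlow := lowG allC9 allC10 rowC11 H452.rowTopG hn hm h2m h2g
    (fun k w => finrank ℂ (X.J k w)) H0 H1 H2 hc
  have h3 : X.J (2 * (n * (n - n / m) * (g - 1)) + 1)
      (2 * (n * (n - n / m) * (g - 1) + 1)) = ⊤ := by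
    apply Submodule.eq_top_of_finrank_eq
    have h4 := hlow.1 (2 * (n * (n - n / m) * (g - 1) + 1))
    rw [if_pos rfl] at h4
    rw [hd]
    exact h4
  exact X.agree hrig hP1 hP0 h3 k i

end Vale.Agent.P275.H85G
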