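import Vale.Agent.P275.H341.Rows4

/-!
# The lowest weight: the left side
-/

namespace Vale.Agent.P275.H85G

open scoped BigOperators Topology
open Filter Vale.Agent.P275.H341

/-- the leading coefficient of a Laurent polynomial -/
theorem lead_tendsto {l : Filter ℕ} {s : ℕ → ℂ} (hs : Tendsto (fun p => (s p)⁻¹) l (𝓝 0))
    (hs0 : ∀ᶠ p in l, s p ≠ 0) {c : ℕ → ℂ} {W N : ℕ} (hN : N ≤ W) (hc : ∀ w, w < N → c w = 0) :
    Tendsto (fun p => (∑ w ∈ Finset.range (W + 1), c w * s p ^ (W - w)) / s p ^ (W - N)) l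
      (𝓝 (c N)) := by
  have h1 : ∀ w ∈ Finset.range (W + 1), Tendsto (fun p => c w * s p ^ (W - w) / s p ^ (W - N)) l
      (𝓝 (if w = N then c N else 0)) := by
    intro w hw
    have hw' : w ≤ W := Nat.lt_succ_iff.1 (Finset.mem_range.1 hw)
    rcases lt_trichotomy w N with h | h | h
    · rw [if_neg h.ne, hc w h]
      refine tendsto_const_nhds.congr fun p => ?_
      rw [zero_mul, zero_div]
    · rw [if_pos h, h]
      refine tendsto_const_nhds.congr' ?_
      filter_upwards [hs0] with p hp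
      rw [mul_div_assoc, div_self (pow_ne_zero _ hp), mul_one]
    · rw [if_neg h.ne']
      have h2 : Tendsto (fun p => c w * (s p)⁻¹ ^ (w - N)) l (𝓝 (c w * 0 ^ (w - N))) :=
        (hs.pow _).const_mul _
      rw [zero_pow (by omega), mul_zero] at h2
      refine h2.congr' ?_
      filter_upwards [hs0] with p hp
      have h3 : W - N = (W - w) + (w - N) := by omega
      rw [h3, pow_add, inv_pow]
      field_simp
  have h2 := tendsto_finsetSum _ h1
  rw [Finset.sum_ite_eq' (Finset.range (W + 1)) N (fun _ => c N),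
    if_pos (Finset.mem_range.2 (by omega))] at h2
  refine h2.congr fun p => ?_
  rw [Finset.sum_div]

/-- the left side, with abstract parameters -/
theorem topL_abs {N g G D R : ℕ} (hN : N ≠ 0) (_hG1 : 1 ≤ G) (h2g : 2 * g - 2 = 2 * G)
    (hRD : 2 * D + 2 ≤ 2 * R) {h : ℕ → ℕ → ℕ} {e : ℕ → ℂ}
    (H0 : ∀ k w, h k w ≠ 0 → k ≤ w ∧ w ≤ 2 * k)
    (H1 : ∀ k w, k ≤ 2 * D → h k w = 0)
    (H2 : ∑ w ∈ Finset.range (2 * (2 * D + 1) + 1), h (2 * D + 1) w = 2 * g - 2)
    (H3 : ∀ p : ℕ, p.Prime → p ≡ 1 [MOD N] →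
      ((p : ℂ) - 1) ^ (2 * g - 2) *
        ∑ k ∈ Finset.range (2 * R + 1),
          ∑ w ∈ Finset.range (2 * k + 1), (-1) ^ k * (h k w : ℂ) *
            ((Real.sqrt p : ℝ) : ℂ) ^ (4 * R - w) = e p)
    (L : Tendsto (fun q : ℕ => e q / (q : ℂ) ^ (2 * G + (2 * R - D - 1)))
      (atTop ⊓ 𝓟 {p : ℕ | p.Prime ∧ p ≡ 1 [MOD N]}) (𝓝 (-(2 * g - 2 : ℕ)))) :
    (∀ w, h (2 * D + 1) w = if w = 2 * (D + 1) then 2 * g - 2 else 0) ∧
    h (2 * D + 2) (2 * D + 2) = 0 := by
  set l : Filter ℕ := atTop ⊓ 𝓟 {p : ℕ | p.Prime ∧ p ≡ 1 [MOD N]} with hl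
  have hne : NeBot l := by
    rw [hl, ← Filter.frequently_iff_neBot]
    exact Nat.frequently_atTop_modEq_one hN
  have hE : 4 * R - (2 * D + 2) = 2 * (2 * R - D - 1) := by omega
  -- the square root
  set s : ℕ → ℂ := fun p => ((Real.sqrt p : ℝ) : ℂ) with hs
  have hs2 : ∀ p : ℕ, s p ^ 2 = (p : ℂ) := by
    intro p
    rw [hs]
    show ((Real.sqrt p : ℝ) : ℂ) ^ 2 = _
    rw [← Complex.ofReal_pow, Real.sq_sqrt (Nat.cast_nonneg p), Complex.ofReal_natCast]
  have hsinv : Tendsto (fun p => (s p)⁻¹) l (𝓝 0) := by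
    have h1 : Tendsto (fun p : ℕ => (Real.sqrt (p : ℝ))⁻¹) atTop (𝓝 0) :=
      tendsto_inv_atTop_zero.comp (Real.tendsto_sqrt_atTop.comp tendsto_natCast_atTop_atTop)
    have h2 : Tendsto (fun p : ℕ => (((Real.sqrt (p : ℝ))⁻¹ : ℝ) : ℂ)) atTop (𝓝 ((0 : ℝ) : ℂ)) :=
      (Complex.continuous_ofReal.tendsto 0).comp h1
    have h3 := h2.mono_left (inf_le_left : l ≤ atTop)
    rw [Complex.ofReal_zero] at h3
    refine h3.congr fun p => ?_
    rw [Complex.ofReal_inv]
  have hev : ∀ᶠ p in l, p.Prime ∧ p ≡ 1 [MOD N] := by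
    rw [hl]
    exact Filter.eventually_inf_principal.2 (Eventually.of_forall fun p hp => hp)
  have hs0 : ∀ᶠ p in l, s p ≠ 0 := by
    filter_upwards [hev] with p hp h0
    have h1 := hs2 p
    rw [h0] at h1
    have h2 : (p : ℂ) = 0 := by rw [← h1]; ring
    have h3 : p = 0 := by exact_mod_cast h2
    exact hp.1.ne_zero h3
  have hqinv : Tendsto (fun p : ℕ => (p : ℂ)⁻¹) l (𝓝 0) := by
    have h1 := hsinv.pow 2
    rw [zero_pow two_ne_zero] at h1
    refine h1.congr fun p => ?_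
    rw [inv_pow, hs2]
  have hfrac : Tendsto (fun p : ℕ => (((p : ℂ)) / ((p : ℂ) - 1)) ^ (2 * G)) l (𝓝 1) := by
    have h1 : Tendsto (fun p : ℕ => ((1 : ℂ) - (p : ℂ)⁻¹)⁻¹) l (𝓝 1) := by
      have h2 := (tendsto_const_nhds (x := (1 : ℂ)) (f := l)).sub hqinv
      rw [sub_zero] at h2
      have h3 := h2.inv₀ one_ne_zero
      rwa [inv_one] at h3
    have h2 := h1.pow (2 * G)
    rw [one_pow] at h2
    refine h2.congr' ?_
    filter_upwards [hev] with p hp
    congr 1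
    have hp0 : (p : ℂ) ≠ 0 := by exact_mod_cast hp.1.ne_zero
    have hp1 : (p : ℂ) - 1 ≠ 0 := by
      rw [sub_ne_zero]
      exact_mod_cast hp.1.one_lt.ne'
    have hp2 : (1 : ℂ) - (p : ℂ)⁻¹ = ((p : ℂ) - 1) / p := by
      rw [sub_div, div_self hp0, one_div]
    rw [hp2, inv_div]
  -- the coefficients
  set c : ℕ → ℂ := fun w => ∑ k ∈ Finset.range (2 * R + 1), (-1) ^ k * (h k w : ℂ) with hc
  have hS : ∀ p : ℕ, ∑ k ∈ Finset.range (2 * R + 1), ∑ w ∈ Finset.range (2 * k + 1),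
      (-1) ^ k * (h k w : ℂ) * s p ^ (4 * R - w) =
      ∑ w ∈ Finset.range (4 * R + 1), c w * s p ^ (4 * R - w) := by
    intro p
    have h1 : ∀ k ∈ Finset.range (2 * R + 1), ∑ w ∈ Finset.range (2 * k + 1),
        (-1) ^ k * (h k w : ℂ) * s p ^ (4 * R - w) = ∑ w ∈ Finset.range (4 * R + 1),
        (-1) ^ k * (h k w : ℂ) * s p ^ (4 * R - w) := by
      intro k hk
      have hk' := Finset.mem_range.1 hk
      apply Finset.sum_subset
      · intro w hw
        rw [Finset.mem_range] at hw ⊢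
        omega
      · intro w _ hw
        rw [Finset.mem_range, not_lt] at hw
        have h2 : h k w = 0 := by
          by_contra h3
          have := (H0 k w h3).2
          omega
        rw [h2]
        simp
    rw [Finset.sum_congr rfl h1, Finset.sum_comm]
    apply Finset.sum_congr rfl
    intro w _
    rw [hc]
    simp only
    rw [Finset.sum_mul]
  have hzero : ∀ w, w < 2 * D + 1 → c w = 0 := by
    intro w hw
    rw [hc]
    simp only
    apply Finset.sum_eq_zero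
    intro k _
    have h2 : h k w = 0 := by
      by_cases h3 : k ≤ 2 * D
      · exact H1 k w h3
      · by_contra h4
        have := (H0 k w h4).1
        omega
    rw [h2]
    simp
  -- the main limit
  have hmain : Tendsto (fun p => (∑ w ∈ Finset.range (4 * R + 1), c w * s p ^ (4 * R - w)) /
      s p ^ (4 * R - (2 * D + 2))) l (𝓝 (-(2 * g - 2 : ℕ))) := by
    have h1 := L.mul hfrac
    rw [mul_one] at h1
    refine h1.congr' ?_
    filter_upwards [hev, hs0] with p hp hp0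
    have h2 := H3 p hp.1 hp.2
    have h3 := hS p
    have h2' : ((p : ℂ) - 1) ^ (2 * g - 2) *
        (∑ w ∈ Finset.range (4 * R + 1), c w * s p ^ (4 * R - w)) = e p := by
      rw [← h3]
      exact h2
    rw [← h2', h2g, hE, pow_add]
    have h4 : s p ^ (2 * (2 * R - D - 1)) = (p : ℂ) ^ (2 * R - D - 1) := by
      rw [pow_mul, hs2]
    rw [h4]
    have hp1 : (p : ℂ) ≠ 0 := by exact_mod_cast hp.1.ne_zero
    have hp2 : (p : ℂ) - 1 ≠ 0 := by
      rw [sub_ne_zero]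
      exact_mod_cast hp.1.one_lt.ne'
    have hp3 : (p : ℂ) ^ (2 * G) ≠ 0 := pow_ne_zero _ hp1
    have hp4 : ((p : ℂ) - 1) ^ (2 * G) ≠ 0 := pow_ne_zero _ hp2
    have hp5 : (p : ℂ) ^ (2 * R - D - 1) ≠ 0 := pow_ne_zero _ hp1
    rw [div_pow]
    field_simp
  have hc1 : c (2 * D + 1) = 0 := by
    have h1 := lead_tendsto hsinv hs0 (W := 4 * R) (N := 2 * D + 1) (c := c) (by omega) hzero
    have h2 := hmain.mul hsinv
    rw [mul_zero] at h2
    refine tendsto_nhds_unique h1 (h2.congr' ?_)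
    filter_upwards [hs0] with p hp
    have h3 : 4 * R - (2 * D + 1) = (4 * R - (2 * D + 2)) + 1 := by omega
    rw [h3, pow_succ]
    field_simp
  have hzero2 : ∀ w, w < 2 * D + 2 → c w = 0 := by
    intro w hw
    rcases Nat.lt_succ_iff_lt_or_eq.1 hw with h1 | h1
    · exact hzero w h1
    · rw [h1]
      exact hc1
  have hc2 : c (2 * D + 2) = (-(2 * g - 2 : ℕ)) := by
    have h1 := lead_tendsto hsinv hs0 (W := 4 * R) (N := 2 * D + 2) (c := c) (by omega) hzero2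
    exact tendsto_nhds_unique h1 hmain
  -- the coefficients
  have hsum : c (2 * D + 2) = (-1) ^ (2 * D + 1) * (h (2 * D + 1) (2 * D + 2) : ℂ) +
      (-1) ^ (2 * D + 2) * (h (2 * D + 2) (2 * D + 2) : ℂ) := by
    rw [hc]
    simp only
    rw [← Finset.sum_pair (f := fun k => (-1) ^ k * (h k (2 * D + 2) : ℂ))
      (show 2 * D + 1 ≠ 2 * D + 2 by omega)]
    symm
    apply Finset.sum_subset
    · intro k hk
      rw [Finset.mem_insert, Finset.mem_singleton] at hk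
      rw [Finset.mem_range]
      omega
    · intro k _ hk
      rw [Finset.mem_insert, Finset.mem_singleton] at hk
      have h2 : h k (2 * D + 2) = 0 := by
        by_cases h3 : k ≤ 2 * D
        · exact H1 k _ h3
        · by_contra h4
          have := (H0 k _ h4).1
          omega
      rw [h2]
      simp
  have hpar1 : ((-1 : ℂ)) ^ (2 * D + 1) = -1 := Odd.neg_one_pow ⟨D, rfl⟩
  have hpar2 : ((-1 : ℂ)) ^ (2 * D + 2) = 1 := Even.neg_one_pow ⟨D + 1, by ring⟩
  rw [hpar1, hpar2, hc2] at hsum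
  have hnat : h (2 * D + 1) (2 * D + 2) = h (2 * D + 2) (2 * D + 2) + (2 * g - 2) := by
    have h1 : ((h (2 * D + 1) (2 * D + 2) : ℕ) : ℂ) =
        ((h (2 * D + 2) (2 * D + 2) + (2 * g - 2) : ℕ) : ℂ) := by
      rw [Nat.cast_add]
      linear_combination hsum
    exact_mod_cast h1
  have hmem : 2 * D + 2 ∈ Finset.range (2 * (2 * D + 1) + 1) := Finset.mem_range.2 (by omega)
  have hsplit := Finset.add_sum_erase (Finset.range (2 * (2 * D + 1) + 1))
    (fun w => h (2 * D + 1) w) hmem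
  rw [H2] at hsplit
  have hsplit' : h (2 * D + 1) (2 * D + 2) + ∑ w ∈ (Finset.range (2 * (2 * D + 1) + 1)).erase
      (2 * D + 2), h (2 * D + 1) w = 2 * g - 2 := hsplit
  have hz1 : h (2 * D + 2) (2 * D + 2) = 0 := by omega
  have hz2 : ∑ w ∈ (Finset.range (2 * (2 * D + 1) + 1)).erase (2 * D + 2), h (2 * D + 1) w = 0 := by
    omega
  have hz3 : h (2 * D + 1) (2 * D + 2) = 2 * g - 2 := by omega
  refine ⟨fun w => ?_, hz1⟩
  by_cases hw : w = 2 * (D + 1)
  · rw [if_pos hw, hw]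
    exact hz3
  · rw [if_neg hw]
    by_contra hne
    have h1 := H0 _ _ hne
    have h2 : w ∈ (Finset.range (2 * (2 * D + 1) + 1)).erase (2 * D + 2) := by
      rw [Finset.mem_erase, Finset.mem_range]
      omega
    exact hne ((Finset.sum_eq_zero_iff.1 hz2) w h2)

/-- **Row TOPG from the leading coefficient of the right side** -/
theorem topL {n m g : ℕ} (hn : 1 ≤ n) (hm : m ∣ n) (hm2 : 2 ≤ m) (hg : 2 ≤ g) {h : ℕ → ℕ → ℕ}
    (H0 : ∀ k w, h k w ≠ 0 → k ≤ w ∧ w ≤ 2 * k)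
    (H1 : ∀ k w, k ≤ 2 * (n * (n - n / m) * (g - 1)) → h k w = 0)
    (H2 : ∑ w ∈ Finset.range (2 * (2 * (n * (n - n / m) * (g - 1)) + 1) + 1),
      h (2 * (n * (n - n / m) * (g - 1)) + 1) w = 2 * g - 2)
    (H3 : ∀ p : ℕ, p.Prime → p ≡ 1 [MOD 2 * n] →
      ((p : ℂ) - 1) ^ (2 * g - 2) *
        ∑ k ∈ Finset.range (2 * ((n ^ 2 - 1) * (g - 1)) + 1),
          ∑ w ∈ Finset.range (2 * k + 1), (-1) ^ k * (h k w : ℂ) *
            ((Real.sqrt p : ℝ) : ℂ) ^ (4 * ((n ^ 2 - 1) * (g - 1)) - w) = eG n m g p)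
    (L : Tendsto (fun q : ℕ => eG n m g (q : ℂ) / (q : ℂ) ^ (n * (g - 1) * (n + n / m) - 1))
      (atTop ⊓ 𝓟 {p : ℕ | p.Prime ∧ p ≡ 1 [MOD 2 * n]}) (𝓝 (-(2 * g - 2 : ℕ)))) :
    (∀ w, h (2 * (n * (n - n / m) * (g - 1)) + 1) w
      = if w = 2 * (n * (n - n / m) * (g - 1) + 1) then 2 * g - 2 else 0) ∧
    h (2 * (n * (n - n / m) * (g - 1)) + 2) (2 * (n * (n - n / m) * (g - 1)) + 2) = 0 := by
  -- the numbers
  obtain ⟨r, hr⟩ := hm
  have hmpos : 0 < m := by omega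
  have hdiv : n / m = r := by rw [hr]; exact Nat.mul_div_cancel_left _ hmpos
  have hrpos : 0 < r := Nat.pos_of_ne_zero (by rintro rfl; rw [mul_zero] at hr; omega)
  have hrn : r ≤ n := by rw [hr]; exact Nat.le_mul_of_pos_left _ hmpos
  have hn2 : 2 ≤ n := by
    rw [hr]
    calc 2 = 2 * 1 := rfl
      _ ≤ m * r := Nat.mul_le_mul hm2 hrpos
  clear hr
  rw [hdiv] at H1 H2 L
  rw [hdiv]
  obtain ⟨G, hG⟩ : ∃ G, G = g - 1 := ⟨_, rfl⟩
  rw [← hG] at H1 H2 H3 L
  rw [← hG]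
  have hG1 : 1 ≤ G := by omega
  have h2g : 2 * g - 2 = 2 * G := by omega
  have e1 : (n ^ 2 - 1) * G + G = n * n * G := by
    have h1 : 1 ≤ n ^ 2 := Nat.one_le_pow _ _ (by omega)
    calc (n ^ 2 - 1) * G + G = ((n ^ 2 - 1) + 1) * G := by ring
      _ = n * n * G := by rw [Nat.sub_add_cancel h1, pow_two]
  have e2 : n * (n - r) * G + n * r * G = n * n * G := by
    rw [← add_mul, ← mul_add, Nat.sub_add_cancel hrn]
  have e3 : n * G * (n + r) = n * n * G + n * r * G := by ring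
  have e4 : 2 * G ≤ n * r * G := by
    apply Nat.mul_le_mul_right
    calc 2 = 2 * 1 := rfl
      _ ≤ n * r := Nat.mul_le_mul hn2 hrpos
  have e5 : 4 * G ≤ n * n * G := by
    apply Nat.mul_le_mul_right
    calc 4 = 2 * 2 := rfl
      _ ≤ n * n := Nat.mul_le_mul hn2 hn2
  have hT : n * G * (n + r) - 1 = 2 * G + (2 * ((n ^ 2 - 1) * G) - n * (n - r) * G - 1) := by
    rw [e3]
    omega
  rw [hT] at L
  exact topL_abs (by omega) hG1 h2g (by omega) H0 H1 H2 H3 L

end Vale.Agent.P275.H85G
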